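import Crest.Agent.Lib.PolyBB.Core
import Crest.Agent.R310.CertDefs

set_option autoImplicit false
set_option maxRecDepth 100000
set_option Elab.async false

open Crest.Agent.Lib.PolyBB

namespace Crest.Agent.R310.Cert.Q11Cert

theorem c0 : run2 (esA Q11) (esB8 Q11) 19 [⟨1, 0, 1, 1⟩, ⟨1, 0, 1, 1⟩, ⟨1, 0, 1, 3⟩] (.split 0 2 1
(.split 1 2 1
(.leaf 0 [146200923236, 29022470637, -1347108697, 3057030605, 101208376611, -43062901214, -3337989113, -126317127417, 119905183413, -16655324207, 70250633599, -282720588733, -445773085441, 861552061108, -145801192994, 0, -32817066878, -13198889459, -13199425639]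
(dec 3 (nat_lit 0x600880000140000080000b340800200000100000200002cd000003000002000188d))) (.leaf 0 [-301732231250, -72201493945, -87277651584, 75314747925, 1059510375409, -4382313077, 30883519834, 49199205021, 1537026994421, 17732698160, 101666853142, -3350616203963, -1097996921938, 2331527470857, -162000605742, 0, -31568370050, 2151311795, 2085571485]
(dec 3 (nat_lit 0x600880000140000080000b340800200000100000200002cd000003000002000188d)))) (.split 1 2 1
(.leaf 0 [146295984825, 30095045209, -9187203428, 19986288344, 56958804099, -57799206121, -697526490, 1025285674, 504796539214, 15423929028, 56992367632, -374293218808, -1138273673843, 709885254407, -336199151331, 0, 400946294431, -46230043156, -14396720644]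
(dec 3 (nat_lit 0x600880000140000080000b340800200000100000200002cd000003000002000188d))) (.leaf 0 [130834246658, -23626965823, -46329432922, 65669567967, 86944833496, -22624768861, 17370065060, -21459719540, -10296779679, -34565919894, 26555376292, -33027754242, 46416756304, -8759315131, -125166409175, 0, -71812487184, -144681497, 15057248554]
(dec 3 (nat_lit 0x600880000140000080000b340800200000100000200002cd000003000002000188d)))))
  [⟨1, 0, 1, 1⟩, ⟨1, 0, 1, 1⟩, ⟨1, 0, 1, 1⟩, ⟨1, 0, 1, 1⟩] = true := by
  decide +kernel

end Crest.Agent.R310.Cert.Q11Cert
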