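import Crest.Agent.Lib.PolyBB.Core
import Crest.Agent.R310.CertDefs

set_option autoImplicit false
set_option maxRecDepth 100000
set_option Elab.async false

open Crest.Agent.Lib.PolyBB

namespace Crest.Agent.R310.Cert.Q12Cert

theorem c0 : run2 (esA Q12) (esB8 Q12) 19 [⟨1, 0, 1, 1⟩, ⟨1, 0, 1, 1⟩, ⟨1, 0, 1, 3⟩] (.split 0 2 1
(.split 1 2 1
(.leaf 0 [247466470846, -39906051172, -97153351912, 32078806376, 223208327625, -86531724758, 61128852264, 4723022588, 456336522238, -101698541280, 65707935781, -987218933479, -581197098329, 1415429270816, 249924848020, 0, -149410220172, 0, -124962424010]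
(dec 3 (nat_lit 0x600a00000140000080000b340800200000100000200002cd000003000002000188d))) (.leaf 0 [803638066846, -122996753515, -294295464157, 64671046370, -707600244908, 35843258440, 201127845142, 154668448810, 281439650506, -193563533483, 53695640782, 11556474278, 243385237910, -169898171192, 118584727368, 0, -107561291410, 2463318824, -77615422224]
(dec 3 (nat_lit 0x185c9a5eff03e0a000001400000800035340800200000100000200002cd000003000002000188d)))) (.split 1 2 1
(.leaf 0 [140149578871, 3451032722, -57652795816, 16484159469, 230614225991, -56493248098, 6918678462, -15153377719, 179920799532, -52861852335, 176419030024, -425757031091, -1128250519669, 801138591105, 174310426187, 0, 336475523637, -40905184219, -126700133929]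
(dec 3 (nat_lit 0x600a00000140000080000b340800200000100000200002cd000003000002000188d))) (.leaf 0 [369898697397, -85993629463, -106043575439, 46462900494, 101376027241, -12666029017, -30244984416, 1983725297, -191893111719, -110991752842, 144810024997, 50497107517, 81580353680, -32113981498, 291710055303, 0, -54611556752, -18125862948, -132437544756]
(dec 3 (nat_lit 0xc34e3c53b0504d941737fa04209800001400000800068340800200000100000200002cd000003000002000188d)))))
  [⟨1, 0, 1, 1⟩, ⟨1, 0, 1, 1⟩, ⟨1, 3, 1, 4⟩, ⟨1, 2, 1, 3⟩] = true := by
  decide +kernel

end Crest.Agent.R310.Cert.Q12Cert
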