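import Crest.Agent.Lib.PolyBB.Core
import Crest.Agent.R310.CertDefs

set_option autoImplicit false
set_option maxRecDepth 100000
set_option Elab.async false

open Crest.Agent.Lib.PolyBB

namespace Crest.Agent.R310.Cert.Q13Cert

theorem c0 : run2 (esA Q13) (esB8 Q13) 19 [⟨1, 0, 1, 1⟩, ⟨1, 0, 1, 1⟩, ⟨1, 0, 1, 3⟩] (.split 0 2 1
(.split 1 2 1
(.leaf 2 [54099673546, 22877546575, -74292363253, 21935369928, -355366892928, -107911901441, 565750231339, -508631668882, 2028342604933, -40384282337, -1000315770981, -747987034658, -297388841196, 1346505832512, -17741994230, 0, -132059301098, 0, 8870997115]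
(dec 3 (nat_lit 0x18509d573d00460a000001400000800039340800800000100000200002cd000003000002000188d))) (.leaf 2 [221684669645, -68199500065, -131472868095, 44958571365, -675348122148, 143361704941, 186831830129, 198573946362, 1512167119480, -184711006772, -283553665286, -1130383775799, -147505352868, 628741012509, 120113297099, 0, -120679528343, 153164834, -69527534772]
(dec 3 (nat_lit 0x1878fffa566812d9428ae4e04609800001400000800069340800800000100000200002cd000003000002000188d)))) (.split 1 2 1
(.leaf 2 [99410493828, -10646616024, -14811471362, 20202718574, 222269324450, -32744661072, -45774830772, 479080555, -218589571323, 4636443306, -16175414940, -40039616603, 72188064092, 11097486771, 264503225299, 0, -28113381439, -24191379655, -112547377036]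
(dec 3 (nat_lit 0xc235c31cf50440a000001400000800038340800800000100000200002cd000003000002000188d))) (.leaf 2 [-23900643661, 5928443525, -56825353592, 43408140491, 222903748499, -51740158393, -40668844023, 43740668810, 188441038286, -13786850174, -11554890409, -242985670788, -219780562364, 171321637025, 449886748913, 0, 42767250503, -72090708435, -177556564287]
(dec 3 (nat_lit 0x30f27a6e3448135292403dd0460980000140000080006a340800800000100000200002cd000003000002000188d)))))
  [⟨1, 0, 1, 1⟩, ⟨1, 0, 1, 1⟩, ⟨1, 3, 1, 4⟩, ⟨7, 12, 1, 2⟩] = true := by
  decide +kernel

end Crest.Agent.R310.Cert.Q13Cert
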