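import Crest.Agent.Lib.PolyBB.Basic
import Crest.Agent.R310.N.Q23aC0
import Crest.Agent.R310.N.Q23aC1
import Crest.Agent.R310.N.Q23aC2
import Crest.Agent.R310.N.Q23aC3
import Crest.Agent.R310.N.Q23aC4
import Crest.Agent.R310.N.Q23aC5
import Crest.Agent.R310.N.Q23aC6

set_option autoImplicit false
set_option maxRecDepth 100000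
set_option Elab.async false

open Crest.Agent.Lib.PolyBB

namespace Crest.Agent.R310.Cert.Q23aCert

theorem g0 : Holds2 (esA Q23a) (esB8 Q23a) 19 [⟨1, 0, 1, 1⟩, ⟨1, 0, 1, 1⟩, ⟨1, 0, 1, 3⟩] [⟨1, 0, 2, 1⟩, ⟨1, 0, 2, 1⟩, ⟨1, 2, 1, 3⟩, ⟨7, 12, 1, 2⟩] :=
  Holds2.of_run2 c0

theorem g1 : Holds2 (esA Q23a) (esB8 Q23a) 19 [⟨1, 0, 1, 1⟩, ⟨1, 0, 1, 1⟩, ⟨1, 0, 1, 3⟩] [⟨1, 0, 2, 1⟩, ⟨2, 1, 4, 3⟩, ⟨1, 2, 2, 5⟩, ⟨7, 12, 1, 2⟩] :=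
  Holds2.of_run2 c1

theorem g2 : Holds2 (esA Q23a) (esB8 Q23a) 19 [⟨1, 0, 1, 1⟩, ⟨1, 0, 1, 1⟩, ⟨1, 0, 1, 3⟩] [⟨1, 0, 2, 1⟩, ⟨4, 3, 1, 1⟩, ⟨1, 2, 2, 5⟩, ⟨7, 12, 6, 11⟩] :=
  Holds2.of_run2 c2

theorem g3 : Holds2 (esA Q23a) (esB8 Q23a) 19 [⟨1, 0, 1, 1⟩, ⟨1, 0, 1, 1⟩, ⟨1, 0, 1, 3⟩] [⟨1, 0, 2, 1⟩, ⟨4, 3, 7, 6⟩, ⟨1, 2, 4, 9⟩, ⟨6, 11, 1, 2⟩] :=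
  Holds2.of_run2 c3

theorem g4 : Holds2 (esA Q23a) (esB8 Q23a) 19 [⟨1, 0, 1, 1⟩, ⟨1, 0, 1, 1⟩, ⟨1, 0, 1, 3⟩] [⟨1, 0, 2, 1⟩, ⟨7, 6, 1, 1⟩, ⟨1, 2, 4, 9⟩, ⟨6, 11, 11, 21⟩] :=
  Holds2.of_run2 c4

theorem g5 : Holds2 (esA Q23a) (esB8 Q23a) 19 [⟨1, 0, 1, 1⟩, ⟨1, 0, 1, 1⟩, ⟨1, 0, 1, 3⟩] [⟨1, 0, 2, 1⟩, ⟨7, 6, 12, 11⟩, ⟨1, 2, 7, 15⟩, ⟨11, 21, 1, 2⟩] :=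
  Holds2.of_run2 c5

theorem g6 : Holds2 (esA Q23a) (esB8 Q23a) 19 [⟨1, 0, 1, 1⟩, ⟨1, 0, 1, 1⟩, ⟨1, 0, 1, 3⟩] [⟨1, 0, 4, 1⟩, ⟨12, 11, 1, 1⟩, ⟨1, 2, 7, 15⟩, ⟨11, 21, 1, 2⟩] :=
  Holds2.of_run2 c6

theorem g7 : Holds2 (esA Q23a) (esB8 Q23a) 19 [⟨1, 0, 1, 1⟩, ⟨1, 0, 1, 1⟩, ⟨1, 0, 1, 3⟩] [⟨4, 1, 2, 1⟩, ⟨12, 11, 1, 1⟩, ⟨1, 2, 7, 15⟩, ⟨11, 21, 19, 37⟩] :=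
  Holds2.of_run2 c7

theorem g8 : Holds2 (esA Q23a) (esB8 Q23a) 19 [⟨1, 0, 1, 1⟩, ⟨1, 0, 1, 1⟩, ⟨1, 0, 1, 3⟩] [⟨4, 1, 13, 4⟩, ⟨12, 11, 1, 1⟩, ⟨1, 2, 12, 25⟩, ⟨19, 37, 1, 2⟩] :=
  Holds2.of_run2 c8

theorem g9 : Holds2 (esA Q23a) (esB8 Q23a) 19 [⟨1, 0, 1, 1⟩, ⟨1, 0, 1, 1⟩, ⟨1, 0, 1, 3⟩] [⟨13, 4, 8, 3⟩, ⟨12, 11, 1, 1⟩, ⟨1, 2, 12, 25⟩, ⟨19, 37, 1, 2⟩] :=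
  Holds2.of_run2 c9

theorem g10 : Holds2 (esA Q23a) (esB8 Q23a) 19 [⟨1, 0, 1, 1⟩, ⟨1, 0, 1, 1⟩, ⟨1, 0, 1, 3⟩] [⟨4, 1, 8, 3⟩, ⟨12, 11, 1, 1⟩, ⟨1, 2, 12, 25⟩, ⟨19, 37, 1, 2⟩] :=
  Holds2.split 0 13 4 g8 g9

theorem g11 : Holds2 (esA Q23a) (esB8 Q23a) 19 [⟨1, 0, 1, 1⟩, ⟨1, 0, 1, 1⟩, ⟨1, 0, 1, 3⟩] [⟨8, 3, 2, 1⟩, ⟨12, 11, 21, 20⟩, ⟨1, 2, 12, 25⟩, ⟨19, 37, 1, 2⟩] :=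
  Holds2.of_run2 c10

theorem g12 : Holds2 (esA Q23a) (esB8 Q23a) 19 [⟨1, 0, 1, 1⟩, ⟨1, 0, 1, 1⟩, ⟨1, 0, 1, 3⟩] [⟨8, 3, 2, 1⟩, ⟨21, 20, 1, 1⟩, ⟨1, 2, 21, 43⟩, ⟨19, 37, 24, 47⟩] :=
  Holds2.of_run2 c11

theorem g13 : Holds2 (esA Q23a) (esB8 Q23a) 19 [⟨1, 0, 1, 1⟩, ⟨1, 0, 1, 1⟩, ⟨1, 0, 1, 3⟩] [⟨8, 3, 2, 1⟩, ⟨21, 20, 1, 1⟩, ⟨1, 2, 21, 43⟩, ⟨24, 47, 26, 51⟩] :=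
  Holds2.of_run2 c12

theorem g14 : Holds2 (esA Q23a) (esB8 Q23a) 19 [⟨1, 0, 1, 1⟩, ⟨1, 0, 1, 1⟩, ⟨1, 0, 1, 3⟩] [⟨8, 3, 2, 1⟩, ⟨21, 20, 1, 1⟩, ⟨1, 2, 21, 43⟩, ⟨26, 51, 28, 55⟩] :=
  Holds2.of_run2 c13

theorem g15 : Holds2 (esA Q23a) (esB8 Q23a) 19 [⟨1, 0, 1, 1⟩, ⟨1, 0, 1, 1⟩, ⟨1, 0, 1, 3⟩] [⟨8, 3, 2, 1⟩, ⟨21, 20, 1, 1⟩, ⟨1, 2, 21, 43⟩, ⟨24, 47, 28, 55⟩] :=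
  Holds2.split 3 26 51 g13 g14

theorem g16 : Holds2 (esA Q23a) (esB8 Q23a) 19 [⟨1, 0, 1, 1⟩, ⟨1, 0, 1, 1⟩, ⟨1, 0, 1, 3⟩] [⟨8, 3, 2, 1⟩, ⟨21, 20, 1, 1⟩, ⟨1, 2, 21, 43⟩, ⟨28, 55, 33, 65⟩] :=
  Holds2.of_run2 c14

theorem g17 : Holds2 (esA Q23a) (esB8 Q23a) 19 [⟨1, 0, 1, 1⟩, ⟨1, 0, 1, 1⟩, ⟨1, 0, 1, 3⟩] [⟨8, 3, 2, 1⟩, ⟨21, 20, 1, 1⟩, ⟨1, 2, 21, 43⟩, ⟨24, 47, 33, 65⟩] :=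
  Holds2.split 3 28 55 g15 g16

theorem g18 : Holds2 (esA Q23a) (esB8 Q23a) 19 [⟨1, 0, 1, 1⟩, ⟨1, 0, 1, 1⟩, ⟨1, 0, 1, 3⟩] [⟨8, 3, 2, 1⟩, ⟨21, 20, 1, 1⟩, ⟨1, 2, 21, 43⟩, ⟨19, 37, 33, 65⟩] :=
  Holds2.split 3 24 47 g12 g17

theorem g19 : Holds2 (esA Q23a) (esB8 Q23a) 19 [⟨1, 0, 1, 1⟩, ⟨1, 0, 1, 1⟩, ⟨1, 0, 1, 3⟩] [⟨8, 3, 2, 1⟩, ⟨21, 20, 1, 1⟩, ⟨21, 43, 12, 25⟩, ⟨19, 37, 33, 65⟩] :=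
  Holds2.of_run2 c15

theorem g20 : Holds2 (esA Q23a) (esB8 Q23a) 19 [⟨1, 0, 1, 1⟩, ⟨1, 0, 1, 1⟩, ⟨1, 0, 1, 3⟩] [⟨8, 3, 2, 1⟩, ⟨21, 20, 1, 1⟩, ⟨1, 2, 12, 25⟩, ⟨19, 37, 33, 65⟩] :=
  Holds2.split 2 21 43 g18 g19

theorem g21 : Holds2 (esA Q23a) (esB8 Q23a) 19 [⟨1, 0, 1, 1⟩, ⟨1, 0, 1, 1⟩, ⟨1, 0, 1, 3⟩] [⟨8, 3, 5, 2⟩, ⟨21, 20, 1, 1⟩, ⟨1, 2, 36, 73⟩, ⟨33, 65, 1, 2⟩] :=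
  Holds2.of_run2 c16

theorem g22 : Holds2 (esA Q23a) (esB8 Q23a) 19 [⟨1, 0, 1, 1⟩, ⟨1, 0, 1, 1⟩, ⟨1, 0, 1, 3⟩] [⟨5, 2, 7, 3⟩, ⟨21, 20, 1, 1⟩, ⟨1, 2, 36, 73⟩, ⟨33, 65, 1, 2⟩] :=
  Holds2.of_run2 c17

theorem g23 : Holds2 (esA Q23a) (esB8 Q23a) 19 [⟨1, 0, 1, 1⟩, ⟨1, 0, 1, 1⟩, ⟨1, 0, 1, 3⟩] [⟨8, 3, 7, 3⟩, ⟨21, 20, 1, 1⟩, ⟨1, 2, 36, 73⟩, ⟨33, 65, 1, 2⟩] :=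
  Holds2.split 0 5 2 g21 g22

theorem g24 : Holds2 (esA Q23a) (esB8 Q23a) 19 [⟨1, 0, 1, 1⟩, ⟨1, 0, 1, 1⟩, ⟨1, 0, 1, 3⟩] [⟨8, 3, 7, 3⟩, ⟨21, 20, 1, 1⟩, ⟨36, 73, 21, 43⟩, ⟨33, 65, 1, 2⟩] :=
  Holds2.of_run2 c18

theorem g25 : Holds2 (esA Q23a) (esB8 Q23a) 19 [⟨1, 0, 1, 1⟩, ⟨1, 0, 1, 1⟩, ⟨1, 0, 1, 3⟩] [⟨8, 3, 7, 3⟩, ⟨21, 20, 1, 1⟩, ⟨1, 2, 21, 43⟩, ⟨33, 65, 1, 2⟩] :=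
  Holds2.split 2 36 73 g23 g24

theorem g26 : Holds2 (esA Q23a) (esB8 Q23a) 19 [⟨1, 0, 1, 1⟩, ⟨1, 0, 1, 1⟩, ⟨1, 0, 1, 3⟩] [⟨7, 3, 9, 4⟩, ⟨21, 20, 1, 1⟩, ⟨1, 2, 62, 125⟩, ⟨33, 65, 1, 2⟩] :=
  Holds2.of_run2 c19

theorem g27 : Holds2 (esA Q23a) (esB8 Q23a) 19 [⟨1, 0, 1, 1⟩, ⟨1, 0, 1, 1⟩, ⟨1, 0, 1, 3⟩] [⟨9, 4, 13, 6⟩, ⟨21, 20, 1, 1⟩, ⟨1, 2, 62, 125⟩, ⟨33, 65, 1, 2⟩] :=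
  Holds2.of_run2 c20

theorem g28 : Holds2 (esA Q23a) (esB8 Q23a) 19 [⟨1, 0, 1, 1⟩, ⟨1, 0, 1, 1⟩, ⟨1, 0, 1, 3⟩] [⟨7, 3, 13, 6⟩, ⟨21, 20, 1, 1⟩, ⟨1, 2, 62, 125⟩, ⟨33, 65, 1, 2⟩] :=
  Holds2.split 0 9 4 g26 g27

theorem g29 : Holds2 (esA Q23a) (esB8 Q23a) 19 [⟨1, 0, 1, 1⟩, ⟨1, 0, 1, 1⟩, ⟨1, 0, 1, 3⟩] [⟨7, 3, 13, 6⟩, ⟨21, 20, 1, 1⟩, ⟨62, 125, 36, 73⟩, ⟨33, 65, 1, 2⟩] :=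
  Holds2.of_run2 c21

theorem g30 : Holds2 (esA Q23a) (esB8 Q23a) 19 [⟨1, 0, 1, 1⟩, ⟨1, 0, 1, 1⟩, ⟨1, 0, 1, 3⟩] [⟨7, 3, 13, 6⟩, ⟨21, 20, 1, 1⟩, ⟨1, 2, 36, 73⟩, ⟨33, 65, 1, 2⟩] :=
  Holds2.split 2 62 125 g28 g29

theorem g31 : Holds2 (esA Q23a) (esB8 Q23a) 19 [⟨1, 0, 1, 1⟩, ⟨1, 0, 1, 1⟩, ⟨1, 0, 1, 3⟩] [⟨13, 6, 2, 1⟩, ⟨21, 20, 1, 1⟩, ⟨1, 2, 107, 215⟩, ⟨33, 65, 57, 113⟩] :=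
  Holds2.of_run2 c22

theorem g32 : Holds2 (esA Q23a) (esB8 Q23a) 19 [⟨1, 0, 1, 1⟩, ⟨1, 0, 1, 1⟩, ⟨1, 0, 1, 3⟩] [⟨13, 6, 2, 1⟩, ⟨21, 20, 1, 1⟩, ⟨1, 2, 184, 369⟩, ⟨57, 113, 98, 195⟩] :=
  Holds2.of_run2 c23

theorem g33 : Holds2 (esA Q23a) (esB8 Q23a) 19 [⟨1, 0, 1, 1⟩, ⟨1, 0, 1, 1⟩, ⟨1, 0, 1, 3⟩] [⟨13, 6, 2, 1⟩, ⟨21, 20, 1, 1⟩, ⟨1, 2, 316, 633⟩, ⟨98, 195, 168, 335⟩] :=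
  Holds2.of_run2 c24

theorem g34 : Holds2 (esA Q23a) (esB8 Q23a) 19 [⟨1, 0, 1, 1⟩, ⟨1, 0, 1, 1⟩, ⟨1, 0, 1, 3⟩] [⟨13, 6, 23, 11⟩, ⟨21, 20, 1, 1⟩, ⟨1, 2, 316, 633⟩, ⟨168, 335, 1, 2⟩] :=
  Holds2.of_run2 c25

theorem g35 : Holds2 (esA Q23a) (esB8 Q23a) 19 [⟨1, 0, 1, 1⟩, ⟨1, 0, 1, 1⟩, ⟨1, 0, 1, 3⟩] [⟨23, 11, 2, 1⟩, ⟨21, 20, 1, 1⟩, ⟨1, 2, 316, 633⟩, ⟨168, 335, 1, 2⟩] :=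
  Holds2.of_run2 c26

theorem g36 : Holds2 (esA Q23a) (esB8 Q23a) 19 [⟨1, 0, 1, 1⟩, ⟨1, 0, 1, 1⟩, ⟨1, 0, 1, 3⟩] [⟨13, 6, 2, 1⟩, ⟨21, 20, 1, 1⟩, ⟨1, 2, 316, 633⟩, ⟨168, 335, 1, 2⟩] :=
  Holds2.split 0 23 11 g34 g35

theorem g37 : Holds2 (esA Q23a) (esB8 Q23a) 19 [⟨1, 0, 1, 1⟩, ⟨1, 0, 1, 1⟩, ⟨1, 0, 1, 3⟩] [⟨13, 6, 2, 1⟩, ⟨21, 20, 1, 1⟩, ⟨1, 2, 316, 633⟩, ⟨98, 195, 1, 2⟩] :=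
  Holds2.split 3 168 335 g33 g36

theorem g38 : Holds2 (esA Q23a) (esB8 Q23a) 19 [⟨1, 0, 1, 1⟩, ⟨1, 0, 1, 1⟩, ⟨1, 0, 1, 3⟩] [⟨13, 6, 2, 1⟩, ⟨21, 20, 1, 1⟩, ⟨316, 633, 184, 369⟩, ⟨98, 195, 1, 2⟩] :=
  Holds2.of_run2 c27

theorem g39 : Holds2 (esA Q23a) (esB8 Q23a) 19 [⟨1, 0, 1, 1⟩, ⟨1, 0, 1, 1⟩, ⟨1, 0, 1, 3⟩] [⟨13, 6, 2, 1⟩, ⟨21, 20, 1, 1⟩, ⟨1, 2, 184, 369⟩, ⟨98, 195, 1, 2⟩] :=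
  Holds2.split 2 316 633 g37 g38

theorem g40 : Holds2 (esA Q23a) (esB8 Q23a) 19 [⟨1, 0, 1, 1⟩, ⟨1, 0, 1, 1⟩, ⟨1, 0, 1, 3⟩] [⟨13, 6, 2, 1⟩, ⟨21, 20, 1, 1⟩, ⟨1, 2, 184, 369⟩, ⟨57, 113, 1, 2⟩] :=
  Holds2.split 3 98 195 g32 g39

theorem g41 : Holds2 (esA Q23a) (esB8 Q23a) 19 [⟨1, 0, 1, 1⟩, ⟨1, 0, 1, 1⟩, ⟨1, 0, 1, 3⟩] [⟨13, 6, 2, 1⟩, ⟨21, 20, 1, 1⟩, ⟨184, 369, 107, 215⟩, ⟨57, 113, 1, 2⟩] :=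
  Holds2.of_run2 c28

theorem g42 : Holds2 (esA Q23a) (esB8 Q23a) 19 [⟨1, 0, 1, 1⟩, ⟨1, 0, 1, 1⟩, ⟨1, 0, 1, 3⟩] [⟨13, 6, 2, 1⟩, ⟨21, 20, 1, 1⟩, ⟨1, 2, 107, 215⟩, ⟨57, 113, 1, 2⟩] :=
  Holds2.split 2 184 369 g40 g41

theorem g43 : Holds2 (esA Q23a) (esB8 Q23a) 19 [⟨1, 0, 1, 1⟩, ⟨1, 0, 1, 1⟩, ⟨1, 0, 1, 3⟩] [⟨13, 6, 2, 1⟩, ⟨21, 20, 1, 1⟩, ⟨1, 2, 107, 215⟩, ⟨33, 65, 1, 2⟩] :=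
  Holds2.split 3 57 113 g31 g42

theorem g44 : Holds2 (esA Q23a) (esB8 Q23a) 19 [⟨1, 0, 1, 1⟩, ⟨1, 0, 1, 1⟩, ⟨1, 0, 1, 3⟩] [⟨13, 6, 2, 1⟩, ⟨21, 20, 1, 1⟩, ⟨107, 215, 62, 125⟩, ⟨33, 65, 1, 2⟩] :=
  Holds2.of_run2 c29

theorem g45 : Holds2 (esA Q23a) (esB8 Q23a) 19 [⟨1, 0, 1, 1⟩, ⟨1, 0, 1, 1⟩, ⟨1, 0, 1, 3⟩] [⟨13, 6, 2, 1⟩, ⟨21, 20, 1, 1⟩, ⟨1, 2, 62, 125⟩, ⟨33, 65, 1, 2⟩] :=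
  Holds2.split 2 107 215 g43 g44

theorem g46 : Holds2 (esA Q23a) (esB8 Q23a) 19 [⟨1, 0, 1, 1⟩, ⟨1, 0, 1, 1⟩, ⟨1, 0, 1, 3⟩] [⟨13, 6, 2, 1⟩, ⟨21, 20, 1, 1⟩, ⟨62, 125, 36, 73⟩, ⟨33, 65, 1, 2⟩] :=
  Holds2.of_run2 c30

theorem g47 : Holds2 (esA Q23a) (esB8 Q23a) 19 [⟨1, 0, 1, 1⟩, ⟨1, 0, 1, 1⟩, ⟨1, 0, 1, 3⟩] [⟨13, 6, 2, 1⟩, ⟨21, 20, 1, 1⟩, ⟨1, 2, 36, 73⟩, ⟨33, 65, 1, 2⟩] :=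
  Holds2.split 2 62 125 g45 g46

theorem g48 : Holds2 (esA Q23a) (esB8 Q23a) 19 [⟨1, 0, 1, 1⟩, ⟨1, 0, 1, 1⟩, ⟨1, 0, 1, 3⟩] [⟨7, 3, 2, 1⟩, ⟨21, 20, 1, 1⟩, ⟨1, 2, 36, 73⟩, ⟨33, 65, 1, 2⟩] :=
  Holds2.split 0 13 6 g30 g47

theorem g49 : Holds2 (esA Q23a) (esB8 Q23a) 19 [⟨1, 0, 1, 1⟩, ⟨1, 0, 1, 1⟩, ⟨1, 0, 1, 3⟩] [⟨7, 3, 2, 1⟩, ⟨21, 20, 1, 1⟩, ⟨36, 73, 21, 43⟩, ⟨33, 65, 1, 2⟩] :=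
  Holds2.of_run2 c31

theorem g50 : Holds2 (esA Q23a) (esB8 Q23a) 19 [⟨1, 0, 1, 1⟩, ⟨1, 0, 1, 1⟩, ⟨1, 0, 1, 3⟩] [⟨7, 3, 2, 1⟩, ⟨21, 20, 1, 1⟩, ⟨1, 2, 21, 43⟩, ⟨33, 65, 1, 2⟩] :=
  Holds2.split 2 36 73 g48 g49

theorem g51 : Holds2 (esA Q23a) (esB8 Q23a) 19 [⟨1, 0, 1, 1⟩, ⟨1, 0, 1, 1⟩, ⟨1, 0, 1, 3⟩] [⟨8, 3, 2, 1⟩, ⟨21, 20, 1, 1⟩, ⟨1, 2, 21, 43⟩, ⟨33, 65, 1, 2⟩] :=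
  Holds2.split 0 7 3 g25 g50

theorem g52 : Holds2 (esA Q23a) (esB8 Q23a) 19 [⟨1, 0, 1, 1⟩, ⟨1, 0, 1, 1⟩, ⟨1, 0, 1, 3⟩] [⟨8, 3, 2, 1⟩, ⟨21, 20, 1, 1⟩, ⟨21, 43, 12, 25⟩, ⟨33, 65, 1, 2⟩] :=
  Holds2.of_run2 c32

theorem g53 : Holds2 (esA Q23a) (esB8 Q23a) 19 [⟨1, 0, 1, 1⟩, ⟨1, 0, 1, 1⟩, ⟨1, 0, 1, 3⟩] [⟨8, 3, 2, 1⟩, ⟨21, 20, 1, 1⟩, ⟨1, 2, 12, 25⟩, ⟨33, 65, 1, 2⟩] :=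
  Holds2.split 2 21 43 g51 g52

theorem g54 : Holds2 (esA Q23a) (esB8 Q23a) 19 [⟨1, 0, 1, 1⟩, ⟨1, 0, 1, 1⟩, ⟨1, 0, 1, 3⟩] [⟨8, 3, 2, 1⟩, ⟨21, 20, 1, 1⟩, ⟨1, 2, 12, 25⟩, ⟨19, 37, 1, 2⟩] :=
  Holds2.split 3 33 65 g20 g53

theorem g55 : Holds2 (esA Q23a) (esB8 Q23a) 19 [⟨1, 0, 1, 1⟩, ⟨1, 0, 1, 1⟩, ⟨1, 0, 1, 3⟩] [⟨8, 3, 2, 1⟩, ⟨12, 11, 1, 1⟩, ⟨1, 2, 12, 25⟩, ⟨19, 37, 1, 2⟩] :=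
  Holds2.split 1 21 20 g11 g54

theorem g56 : Holds2 (esA Q23a) (esB8 Q23a) 19 [⟨1, 0, 1, 1⟩, ⟨1, 0, 1, 1⟩, ⟨1, 0, 1, 3⟩] [⟨4, 1, 2, 1⟩, ⟨12, 11, 1, 1⟩, ⟨1, 2, 12, 25⟩, ⟨19, 37, 1, 2⟩] :=
  Holds2.split 0 8 3 g10 g55

theorem g57 : Holds2 (esA Q23a) (esB8 Q23a) 19 [⟨1, 0, 1, 1⟩, ⟨1, 0, 1, 1⟩, ⟨1, 0, 1, 3⟩] [⟨4, 1, 2, 1⟩, ⟨12, 11, 1, 1⟩, ⟨12, 25, 7, 15⟩, ⟨19, 37, 1, 2⟩] :=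
  Holds2.of_run2 c33

theorem g58 : Holds2 (esA Q23a) (esB8 Q23a) 19 [⟨1, 0, 1, 1⟩, ⟨1, 0, 1, 1⟩, ⟨1, 0, 1, 3⟩] [⟨4, 1, 2, 1⟩, ⟨12, 11, 1, 1⟩, ⟨1, 2, 7, 15⟩, ⟨19, 37, 1, 2⟩] :=
  Holds2.split 2 12 25 g56 g57

theorem g59 : Holds2 (esA Q23a) (esB8 Q23a) 19 [⟨1, 0, 1, 1⟩, ⟨1, 0, 1, 1⟩, ⟨1, 0, 1, 3⟩] [⟨4, 1, 2, 1⟩, ⟨12, 11, 1, 1⟩, ⟨1, 2, 7, 15⟩, ⟨11, 21, 1, 2⟩] :=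
  Holds2.split 3 19 37 g7 g58

theorem g60 : Holds2 (esA Q23a) (esB8 Q23a) 19 [⟨1, 0, 1, 1⟩, ⟨1, 0, 1, 1⟩, ⟨1, 0, 1, 3⟩] [⟨1, 0, 2, 1⟩, ⟨12, 11, 1, 1⟩, ⟨1, 2, 7, 15⟩, ⟨11, 21, 1, 2⟩] :=
  Holds2.split 0 4 1 g6 g59

theorem g61 : Holds2 (esA Q23a) (esB8 Q23a) 19 [⟨1, 0, 1, 1⟩, ⟨1, 0, 1, 1⟩, ⟨1, 0, 1, 3⟩] [⟨1, 0, 2, 1⟩, ⟨7, 6, 1, 1⟩, ⟨1, 2, 7, 15⟩, ⟨11, 21, 1, 2⟩] :=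
  Holds2.split 1 12 11 g5 g60

theorem g62 : Holds2 (esA Q23a) (esB8 Q23a) 19 [⟨1, 0, 1, 1⟩, ⟨1, 0, 1, 1⟩, ⟨1, 0, 1, 3⟩] [⟨1, 0, 2, 1⟩, ⟨7, 6, 1, 1⟩, ⟨7, 15, 4, 9⟩, ⟨11, 21, 1, 2⟩] :=
  Holds2.of_run2 c34

theorem g63 : Holds2 (esA Q23a) (esB8 Q23a) 19 [⟨1, 0, 1, 1⟩, ⟨1, 0, 1, 1⟩, ⟨1, 0, 1, 3⟩] [⟨1, 0, 2, 1⟩, ⟨7, 6, 1, 1⟩, ⟨1, 2, 4, 9⟩, ⟨11, 21, 1, 2⟩] :=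
  Holds2.split 2 7 15 g61 g62

theorem g64 : Holds2 (esA Q23a) (esB8 Q23a) 19 [⟨1, 0, 1, 1⟩, ⟨1, 0, 1, 1⟩, ⟨1, 0, 1, 3⟩] [⟨1, 0, 2, 1⟩, ⟨7, 6, 1, 1⟩, ⟨1, 2, 4, 9⟩, ⟨6, 11, 1, 2⟩] :=
  Holds2.split 3 11 21 g4 g63

theorem g65 : Holds2 (esA Q23a) (esB8 Q23a) 19 [⟨1, 0, 1, 1⟩, ⟨1, 0, 1, 1⟩, ⟨1, 0, 1, 3⟩] [⟨1, 0, 2, 1⟩, ⟨4, 3, 1, 1⟩, ⟨1, 2, 4, 9⟩, ⟨6, 11, 1, 2⟩] :=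
  Holds2.split 1 7 6 g3 g64

theorem g66 : Holds2 (esA Q23a) (esB8 Q23a) 19 [⟨1, 0, 1, 1⟩, ⟨1, 0, 1, 1⟩, ⟨1, 0, 1, 3⟩] [⟨1, 0, 2, 1⟩, ⟨4, 3, 1, 1⟩, ⟨4, 9, 2, 5⟩, ⟨6, 11, 1, 2⟩] :=
  Holds2.of_run2 c35

theorem g67 : Holds2 (esA Q23a) (esB8 Q23a) 19 [⟨1, 0, 1, 1⟩, ⟨1, 0, 1, 1⟩, ⟨1, 0, 1, 3⟩] [⟨1, 0, 2, 1⟩, ⟨4, 3, 1, 1⟩, ⟨1, 2, 2, 5⟩, ⟨6, 11, 1, 2⟩] :=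
  Holds2.split 2 4 9 g65 g66

theorem g68 : Holds2 (esA Q23a) (esB8 Q23a) 19 [⟨1, 0, 1, 1⟩, ⟨1, 0, 1, 1⟩, ⟨1, 0, 1, 3⟩] [⟨1, 0, 2, 1⟩, ⟨4, 3, 1, 1⟩, ⟨1, 2, 2, 5⟩, ⟨7, 12, 1, 2⟩] :=
  Holds2.split 3 6 11 g2 g67

theorem g69 : Holds2 (esA Q23a) (esB8 Q23a) 19 [⟨1, 0, 1, 1⟩, ⟨1, 0, 1, 1⟩, ⟨1, 0, 1, 3⟩] [⟨1, 0, 2, 1⟩, ⟨2, 1, 1, 1⟩, ⟨1, 2, 2, 5⟩, ⟨7, 12, 1, 2⟩] :=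
  Holds2.split 1 4 3 g1 g68

theorem g70 : Holds2 (esA Q23a) (esB8 Q23a) 19 [⟨1, 0, 1, 1⟩, ⟨1, 0, 1, 1⟩, ⟨1, 0, 1, 3⟩] [⟨1, 0, 2, 1⟩, ⟨2, 1, 1, 1⟩, ⟨2, 5, 1, 3⟩, ⟨7, 12, 1, 2⟩] :=
  Holds2.of_run2 c36

theorem g71 : Holds2 (esA Q23a) (esB8 Q23a) 19 [⟨1, 0, 1, 1⟩, ⟨1, 0, 1, 1⟩, ⟨1, 0, 1, 3⟩] [⟨1, 0, 2, 1⟩, ⟨2, 1, 1, 1⟩, ⟨1, 2, 1, 3⟩, ⟨7, 12, 1, 2⟩] :=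
  Holds2.split 2 2 5 g69 g70

theorem g72 : Holds2 (esA Q23a) (esB8 Q23a) 19 [⟨1, 0, 1, 1⟩, ⟨1, 0, 1, 1⟩, ⟨1, 0, 1, 3⟩] [⟨1, 0, 2, 1⟩, ⟨1, 0, 1, 1⟩, ⟨1, 2, 1, 3⟩, ⟨7, 12, 1, 2⟩] :=
  Holds2.split 1 2 1 g0 g71

theorem g73 : Holds2 (esA Q23a) (esB8 Q23a) 19 [⟨1, 0, 1, 1⟩, ⟨1, 0, 1, 1⟩, ⟨1, 0, 1, 3⟩] [⟨2, 1, 1, 1⟩, ⟨1, 0, 2, 1⟩, ⟨1, 2, 1, 3⟩, ⟨7, 12, 1, 2⟩] :=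
  Holds2.of_run2 c37

theorem g74 : Holds2 (esA Q23a) (esB8 Q23a) 19 [⟨1, 0, 1, 1⟩, ⟨1, 0, 1, 1⟩, ⟨1, 0, 1, 3⟩] [⟨2, 1, 4, 3⟩, ⟨2, 1, 1, 1⟩, ⟨1, 2, 2, 5⟩, ⟨7, 12, 6, 11⟩] :=
  Holds2.of_run2 c38

theorem g75 : Holds2 (esA Q23a) (esB8 Q23a) 19 [⟨1, 0, 1, 1⟩, ⟨1, 0, 1, 1⟩, ⟨1, 0, 1, 3⟩] [⟨2, 1, 4, 3⟩, ⟨2, 1, 4, 3⟩, ⟨1, 2, 2, 5⟩, ⟨6, 11, 1, 2⟩] :=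
  Holds2.of_run2 c39

theorem g76 : Holds2 (esA Q23a) (esB8 Q23a) 19 [⟨1, 0, 1, 1⟩, ⟨1, 0, 1, 1⟩, ⟨1, 0, 1, 3⟩] [⟨2, 1, 4, 3⟩, ⟨4, 3, 1, 1⟩, ⟨1, 2, 4, 9⟩, ⟨6, 11, 11, 21⟩] :=
  Holds2.of_run2 c40

theorem g77 : Holds2 (esA Q23a) (esB8 Q23a) 19 [⟨1, 0, 1, 1⟩, ⟨1, 0, 1, 1⟩, ⟨1, 0, 1, 3⟩] [⟨2, 1, 4, 3⟩, ⟨4, 3, 7, 6⟩, ⟨1, 2, 4, 9⟩, ⟨11, 21, 1, 2⟩] :=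
  Holds2.of_run2 c41

theorem g78 : Holds2 (esA Q23a) (esB8 Q23a) 19 [⟨1, 0, 1, 1⟩, ⟨1, 0, 1, 1⟩, ⟨1, 0, 1, 3⟩] [⟨2, 1, 4, 3⟩, ⟨7, 6, 1, 1⟩, ⟨1, 2, 7, 15⟩, ⟨11, 21, 19, 37⟩] :=
  Holds2.of_run2 c42

theorem g79 : Holds2 (esA Q23a) (esB8 Q23a) 19 [⟨1, 0, 1, 1⟩, ⟨1, 0, 1, 1⟩, ⟨1, 0, 1, 3⟩] [⟨2, 1, 4, 3⟩, ⟨7, 6, 12, 11⟩, ⟨1, 2, 7, 15⟩, ⟨19, 37, 1, 2⟩] :=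
  Holds2.of_run2 c43

theorem g80 : Holds2 (esA Q23a) (esB8 Q23a) 19 [⟨1, 0, 1, 1⟩, ⟨1, 0, 1, 1⟩, ⟨1, 0, 1, 3⟩] [⟨2, 1, 4, 3⟩, ⟨12, 11, 1, 1⟩, ⟨1, 2, 12, 25⟩, ⟨19, 37, 33, 65⟩] :=
  Holds2.of_run2 c44

theorem g81 : Holds2 (esA Q23a) (esB8 Q23a) 19 [⟨1, 0, 1, 1⟩, ⟨1, 0, 1, 1⟩, ⟨1, 0, 1, 3⟩] [⟨2, 1, 8, 5⟩, ⟨12, 11, 21, 20⟩, ⟨1, 2, 21, 43⟩, ⟨33, 65, 1, 2⟩] :=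
  Holds2.of_run2 c45

theorem g82 : Holds2 (esA Q23a) (esB8 Q23a) 19 [⟨1, 0, 1, 1⟩, ⟨1, 0, 1, 1⟩, ⟨1, 0, 1, 3⟩] [⟨2, 1, 7, 4⟩, ⟨21, 20, 1, 1⟩, ⟨1, 2, 21, 43⟩, ⟨33, 65, 57, 113⟩] :=
  Holds2.of_run2 c46

theorem g83 : Holds2 (esA Q23a) (esB8 Q23a) 19 [⟨1, 0, 1, 1⟩, ⟨1, 0, 1, 1⟩, ⟨1, 0, 1, 3⟩] [⟨2, 1, 7, 4⟩, ⟨21, 20, 1, 1⟩, ⟨1, 2, 21, 43⟩, ⟨57, 113, 1, 2⟩] :=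
  Holds2.of_run2 c47

theorem g84 : Holds2 (esA Q23a) (esB8 Q23a) 19 [⟨1, 0, 1, 1⟩, ⟨1, 0, 1, 1⟩, ⟨1, 0, 1, 3⟩] [⟨2, 1, 7, 4⟩, ⟨21, 20, 1, 1⟩, ⟨1, 2, 21, 43⟩, ⟨33, 65, 1, 2⟩] :=
  Holds2.split 3 57 113 g82 g83

theorem g85 : Holds2 (esA Q23a) (esB8 Q23a) 19 [⟨1, 0, 1, 1⟩, ⟨1, 0, 1, 1⟩, ⟨1, 0, 1, 3⟩] [⟨7, 4, 8, 5⟩, ⟨21, 20, 1, 1⟩, ⟨1, 2, 36, 73⟩, ⟨33, 65, 1, 2⟩] :=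
  Holds2.of_run2 c48

theorem g86 : Holds2 (esA Q23a) (esB8 Q23a) 19 [⟨1, 0, 1, 1⟩, ⟨1, 0, 1, 1⟩, ⟨1, 0, 1, 3⟩] [⟨7, 4, 8, 5⟩, ⟨21, 20, 1, 1⟩, ⟨36, 73, 21, 43⟩, ⟨33, 65, 1, 2⟩] :=
  Holds2.of_run2 c49

theorem g87 : Holds2 (esA Q23a) (esB8 Q23a) 19 [⟨1, 0, 1, 1⟩, ⟨1, 0, 1, 1⟩, ⟨1, 0, 1, 3⟩] [⟨7, 4, 8, 5⟩, ⟨21, 20, 1, 1⟩, ⟨1, 2, 21, 43⟩, ⟨33, 65, 1, 2⟩] :=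
  Holds2.split 2 36 73 g85 g86

theorem g88 : Holds2 (esA Q23a) (esB8 Q23a) 19 [⟨1, 0, 1, 1⟩, ⟨1, 0, 1, 1⟩, ⟨1, 0, 1, 3⟩] [⟨2, 1, 8, 5⟩, ⟨21, 20, 1, 1⟩, ⟨1, 2, 21, 43⟩, ⟨33, 65, 1, 2⟩] :=
  Holds2.split 0 7 4 g84 g87

theorem g89 : Holds2 (esA Q23a) (esB8 Q23a) 19 [⟨1, 0, 1, 1⟩, ⟨1, 0, 1, 1⟩, ⟨1, 0, 1, 3⟩] [⟨2, 1, 8, 5⟩, ⟨12, 11, 1, 1⟩, ⟨1, 2, 21, 43⟩, ⟨33, 65, 1, 2⟩] :=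
  Holds2.split 1 21 20 g81 g88

theorem g90 : Holds2 (esA Q23a) (esB8 Q23a) 19 [⟨1, 0, 1, 1⟩, ⟨1, 0, 1, 1⟩, ⟨1, 0, 1, 3⟩] [⟨8, 5, 4, 3⟩, ⟨12, 11, 1, 1⟩, ⟨1, 2, 21, 43⟩, ⟨33, 65, 1, 2⟩] :=
  Holds2.of_run2 c50

theorem g91 : Holds2 (esA Q23a) (esB8 Q23a) 19 [⟨1, 0, 1, 1⟩, ⟨1, 0, 1, 1⟩, ⟨1, 0, 1, 3⟩] [⟨2, 1, 4, 3⟩, ⟨12, 11, 1, 1⟩, ⟨1, 2, 21, 43⟩, ⟨33, 65, 1, 2⟩] :=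
  Holds2.split 0 8 5 g89 g90

theorem g92 : Holds2 (esA Q23a) (esB8 Q23a) 19 [⟨1, 0, 1, 1⟩, ⟨1, 0, 1, 1⟩, ⟨1, 0, 1, 3⟩] [⟨2, 1, 4, 3⟩, ⟨12, 11, 1, 1⟩, ⟨21, 43, 12, 25⟩, ⟨33, 65, 1, 2⟩] :=
  Holds2.of_run2 c51

theorem g93 : Holds2 (esA Q23a) (esB8 Q23a) 19 [⟨1, 0, 1, 1⟩, ⟨1, 0, 1, 1⟩, ⟨1, 0, 1, 3⟩] [⟨2, 1, 4, 3⟩, ⟨12, 11, 1, 1⟩, ⟨1, 2, 12, 25⟩, ⟨33, 65, 1, 2⟩] :=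
  Holds2.split 2 21 43 g91 g92

theorem g94 : Holds2 (esA Q23a) (esB8 Q23a) 19 [⟨1, 0, 1, 1⟩, ⟨1, 0, 1, 1⟩, ⟨1, 0, 1, 3⟩] [⟨2, 1, 4, 3⟩, ⟨12, 11, 1, 1⟩, ⟨1, 2, 12, 25⟩, ⟨19, 37, 1, 2⟩] :=
  Holds2.split 3 33 65 g80 g93

theorem g95 : Holds2 (esA Q23a) (esB8 Q23a) 19 [⟨1, 0, 1, 1⟩, ⟨1, 0, 1, 1⟩, ⟨1, 0, 1, 3⟩] [⟨2, 1, 4, 3⟩, ⟨12, 11, 1, 1⟩, ⟨12, 25, 7, 15⟩, ⟨19, 37, 1, 2⟩] :=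
  Holds2.of_run2 c52

theorem g96 : Holds2 (esA Q23a) (esB8 Q23a) 19 [⟨1, 0, 1, 1⟩, ⟨1, 0, 1, 1⟩, ⟨1, 0, 1, 3⟩] [⟨2, 1, 4, 3⟩, ⟨12, 11, 1, 1⟩, ⟨1, 2, 7, 15⟩, ⟨19, 37, 1, 2⟩] :=
  Holds2.split 2 12 25 g94 g95

theorem g97 : Holds2 (esA Q23a) (esB8 Q23a) 19 [⟨1, 0, 1, 1⟩, ⟨1, 0, 1, 1⟩, ⟨1, 0, 1, 3⟩] [⟨2, 1, 4, 3⟩, ⟨7, 6, 1, 1⟩, ⟨1, 2, 7, 15⟩, ⟨19, 37, 1, 2⟩] :=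
  Holds2.split 1 12 11 g79 g96

theorem g98 : Holds2 (esA Q23a) (esB8 Q23a) 19 [⟨1, 0, 1, 1⟩, ⟨1, 0, 1, 1⟩, ⟨1, 0, 1, 3⟩] [⟨2, 1, 4, 3⟩, ⟨7, 6, 1, 1⟩, ⟨1, 2, 7, 15⟩, ⟨11, 21, 1, 2⟩] :=
  Holds2.split 3 19 37 g78 g97

theorem g99 : Holds2 (esA Q23a) (esB8 Q23a) 19 [⟨1, 0, 1, 1⟩, ⟨1, 0, 1, 1⟩, ⟨1, 0, 1, 3⟩] [⟨2, 1, 4, 3⟩, ⟨7, 6, 1, 1⟩, ⟨7, 15, 4, 9⟩, ⟨11, 21, 1, 2⟩] :=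
  Holds2.of_run2 c53

theorem g100 : Holds2 (esA Q23a) (esB8 Q23a) 19 [⟨1, 0, 1, 1⟩, ⟨1, 0, 1, 1⟩, ⟨1, 0, 1, 3⟩] [⟨2, 1, 4, 3⟩, ⟨7, 6, 1, 1⟩, ⟨1, 2, 4, 9⟩, ⟨11, 21, 1, 2⟩] :=
  Holds2.split 2 7 15 g98 g99

theorem g101 : Holds2 (esA Q23a) (esB8 Q23a) 19 [⟨1, 0, 1, 1⟩, ⟨1, 0, 1, 1⟩, ⟨1, 0, 1, 3⟩] [⟨2, 1, 4, 3⟩, ⟨4, 3, 1, 1⟩, ⟨1, 2, 4, 9⟩, ⟨11, 21, 1, 2⟩] :=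
  Holds2.split 1 7 6 g77 g100

theorem g102 : Holds2 (esA Q23a) (esB8 Q23a) 19 [⟨1, 0, 1, 1⟩, ⟨1, 0, 1, 1⟩, ⟨1, 0, 1, 3⟩] [⟨2, 1, 4, 3⟩, ⟨4, 3, 1, 1⟩, ⟨1, 2, 4, 9⟩, ⟨6, 11, 1, 2⟩] :=
  Holds2.split 3 11 21 g76 g101

theorem g103 : Holds2 (esA Q23a) (esB8 Q23a) 19 [⟨1, 0, 1, 1⟩, ⟨1, 0, 1, 1⟩, ⟨1, 0, 1, 3⟩] [⟨2, 1, 4, 3⟩, ⟨4, 3, 1, 1⟩, ⟨4, 9, 2, 5⟩, ⟨6, 11, 1, 2⟩] :=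
  Holds2.of_run2 c54

theorem g104 : Holds2 (esA Q23a) (esB8 Q23a) 19 [⟨1, 0, 1, 1⟩, ⟨1, 0, 1, 1⟩, ⟨1, 0, 1, 3⟩] [⟨2, 1, 4, 3⟩, ⟨4, 3, 1, 1⟩, ⟨1, 2, 2, 5⟩, ⟨6, 11, 1, 2⟩] :=
  Holds2.split 2 4 9 g102 g103

theorem g105 : Holds2 (esA Q23a) (esB8 Q23a) 19 [⟨1, 0, 1, 1⟩, ⟨1, 0, 1, 1⟩, ⟨1, 0, 1, 3⟩] [⟨2, 1, 4, 3⟩, ⟨2, 1, 1, 1⟩, ⟨1, 2, 2, 5⟩, ⟨6, 11, 1, 2⟩] :=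
  Holds2.split 1 4 3 g75 g104

theorem g106 : Holds2 (esA Q23a) (esB8 Q23a) 19 [⟨1, 0, 1, 1⟩, ⟨1, 0, 1, 1⟩, ⟨1, 0, 1, 3⟩] [⟨2, 1, 4, 3⟩, ⟨2, 1, 1, 1⟩, ⟨1, 2, 2, 5⟩, ⟨7, 12, 1, 2⟩] :=
  Holds2.split 3 6 11 g74 g105

theorem g107 : Holds2 (esA Q23a) (esB8 Q23a) 19 [⟨1, 0, 1, 1⟩, ⟨1, 0, 1, 1⟩, ⟨1, 0, 1, 3⟩] [⟨2, 1, 4, 3⟩, ⟨2, 1, 1, 1⟩, ⟨2, 5, 1, 3⟩, ⟨7, 12, 1, 2⟩] :=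
  Holds2.of_run2 c55

theorem g108 : Holds2 (esA Q23a) (esB8 Q23a) 19 [⟨1, 0, 1, 1⟩, ⟨1, 0, 1, 1⟩, ⟨1, 0, 1, 3⟩] [⟨2, 1, 4, 3⟩, ⟨2, 1, 1, 1⟩, ⟨1, 2, 1, 3⟩, ⟨7, 12, 1, 2⟩] :=
  Holds2.split 2 2 5 g106 g107

theorem g109 : Holds2 (esA Q23a) (esB8 Q23a) 19 [⟨1, 0, 1, 1⟩, ⟨1, 0, 1, 1⟩, ⟨1, 0, 1, 3⟩] [⟨4, 3, 1, 1⟩, ⟨2, 1, 4, 3⟩, ⟨1, 2, 2, 5⟩, ⟨7, 12, 1, 2⟩] :=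
  Holds2.of_run2 c56

theorem g110 : Holds2 (esA Q23a) (esB8 Q23a) 19 [⟨1, 0, 1, 1⟩, ⟨1, 0, 1, 1⟩, ⟨1, 0, 1, 3⟩] [⟨4, 3, 1, 1⟩, ⟨4, 3, 1, 1⟩, ⟨1, 2, 2, 5⟩, ⟨7, 12, 6, 11⟩] :=
  Holds2.of_run2 c57

theorem g111 : Holds2 (esA Q23a) (esB8 Q23a) 19 [⟨1, 0, 1, 1⟩, ⟨1, 0, 1, 1⟩, ⟨1, 0, 1, 3⟩] [⟨4, 3, 7, 6⟩, ⟨4, 3, 1, 1⟩, ⟨1, 2, 2, 5⟩, ⟨6, 11, 1, 2⟩] :=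
  Holds2.of_run2 c58

theorem g112 : Holds2 (esA Q23a) (esB8 Q23a) 19 [⟨1, 0, 1, 1⟩, ⟨1, 0, 1, 1⟩, ⟨1, 0, 1, 3⟩] [⟨7, 6, 1, 1⟩, ⟨4, 3, 1, 1⟩, ⟨1, 2, 12, 25⟩, ⟨6, 11, 11, 21⟩] :=
  Holds2.of_run2 c59

theorem g113 : Holds2 (esA Q23a) (esB8 Q23a) 19 [⟨1, 0, 1, 1⟩, ⟨1, 0, 1, 1⟩, ⟨1, 0, 1, 3⟩] [⟨7, 6, 12, 11⟩, ⟨4, 3, 1, 1⟩, ⟨1, 2, 12, 25⟩, ⟨11, 21, 1, 2⟩] :=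
  Holds2.of_run2 c60

theorem g114 : Holds2 (esA Q23a) (esB8 Q23a) 19 [⟨1, 0, 1, 1⟩, ⟨1, 0, 1, 1⟩, ⟨1, 0, 1, 3⟩] [⟨12, 11, 21, 20⟩, ⟨4, 3, 1, 1⟩, ⟨1, 2, 12, 25⟩, ⟨11, 21, 1, 2⟩] :=
  Holds2.of_run2 c61

theorem g115 : Holds2 (esA Q23a) (esB8 Q23a) 19 [⟨1, 0, 1, 1⟩, ⟨1, 0, 1, 1⟩, ⟨1, 0, 1, 3⟩] [⟨21, 20, 1, 1⟩, ⟨4, 3, 1, 1⟩, ⟨1, 2, 12, 25⟩, ⟨11, 21, 1, 2⟩] :=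
  Holds2.of_run2 c62

theorem g116 : Holds2 (esA Q23a) (esB8 Q23a) 19 [⟨1, 0, 1, 1⟩, ⟨1, 0, 1, 1⟩, ⟨1, 0, 1, 3⟩] [⟨12, 11, 1, 1⟩, ⟨4, 3, 1, 1⟩, ⟨1, 2, 12, 25⟩, ⟨11, 21, 1, 2⟩] :=
  Holds2.split 0 21 20 g114 g115

theorem g117 : Holds2 (esA Q23a) (esB8 Q23a) 19 [⟨1, 0, 1, 1⟩, ⟨1, 0, 1, 1⟩, ⟨1, 0, 1, 3⟩] [⟨7, 6, 1, 1⟩, ⟨4, 3, 1, 1⟩, ⟨1, 2, 12, 25⟩, ⟨11, 21, 1, 2⟩] :=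
  Holds2.split 0 12 11 g113 g116

theorem g118 : Holds2 (esA Q23a) (esB8 Q23a) 19 [⟨1, 0, 1, 1⟩, ⟨1, 0, 1, 1⟩, ⟨1, 0, 1, 3⟩] [⟨7, 6, 1, 1⟩, ⟨4, 3, 1, 1⟩, ⟨1, 2, 12, 25⟩, ⟨6, 11, 1, 2⟩] :=
  Holds2.split 3 11 21 g112 g117

theorem g119 : Holds2 (esA Q23a) (esB8 Q23a) 19 [⟨1, 0, 1, 1⟩, ⟨1, 0, 1, 1⟩, ⟨1, 0, 1, 3⟩] [⟨7, 6, 1, 1⟩, ⟨4, 3, 1, 1⟩, ⟨12, 25, 7, 15⟩, ⟨6, 11, 1, 2⟩] :=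
  Holds2.of_run2 c63

theorem g120 : Holds2 (esA Q23a) (esB8 Q23a) 19 [⟨1, 0, 1, 1⟩, ⟨1, 0, 1, 1⟩, ⟨1, 0, 1, 3⟩] [⟨7, 6, 1, 1⟩, ⟨4, 3, 1, 1⟩, ⟨1, 2, 7, 15⟩, ⟨6, 11, 1, 2⟩] :=
  Holds2.split 2 12 25 g118 g119

theorem g121 : Holds2 (esA Q23a) (esB8 Q23a) 19 [⟨1, 0, 1, 1⟩, ⟨1, 0, 1, 1⟩, ⟨1, 0, 1, 3⟩] [⟨7, 6, 1, 1⟩, ⟨4, 3, 1, 1⟩, ⟨7, 15, 4, 9⟩, ⟨6, 11, 1, 2⟩] :=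
  Holds2.of_run2 c64

theorem g122 : Holds2 (esA Q23a) (esB8 Q23a) 19 [⟨1, 0, 1, 1⟩, ⟨1, 0, 1, 1⟩, ⟨1, 0, 1, 3⟩] [⟨7, 6, 1, 1⟩, ⟨4, 3, 1, 1⟩, ⟨1, 2, 4, 9⟩, ⟨6, 11, 1, 2⟩] :=
  Holds2.split 2 7 15 g120 g121

theorem g123 : Holds2 (esA Q23a) (esB8 Q23a) 19 [⟨1, 0, 1, 1⟩, ⟨1, 0, 1, 1⟩, ⟨1, 0, 1, 3⟩] [⟨7, 6, 1, 1⟩, ⟨4, 3, 1, 1⟩, ⟨4, 9, 2, 5⟩, ⟨6, 11, 1, 2⟩] :=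
  Holds2.of_run2 c65

theorem g124 : Holds2 (esA Q23a) (esB8 Q23a) 19 [⟨1, 0, 1, 1⟩, ⟨1, 0, 1, 1⟩, ⟨1, 0, 1, 3⟩] [⟨7, 6, 1, 1⟩, ⟨4, 3, 1, 1⟩, ⟨1, 2, 2, 5⟩, ⟨6, 11, 1, 2⟩] :=
  Holds2.split 2 4 9 g122 g123

theorem g125 : Holds2 (esA Q23a) (esB8 Q23a) 19 [⟨1, 0, 1, 1⟩, ⟨1, 0, 1, 1⟩, ⟨1, 0, 1, 3⟩] [⟨4, 3, 1, 1⟩, ⟨4, 3, 1, 1⟩, ⟨1, 2, 2, 5⟩, ⟨6, 11, 1, 2⟩] :=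
  Holds2.split 0 7 6 g111 g124

theorem g126 : Holds2 (esA Q23a) (esB8 Q23a) 19 [⟨1, 0, 1, 1⟩, ⟨1, 0, 1, 1⟩, ⟨1, 0, 1, 3⟩] [⟨4, 3, 1, 1⟩, ⟨4, 3, 1, 1⟩, ⟨1, 2, 2, 5⟩, ⟨7, 12, 1, 2⟩] :=
  Holds2.split 3 6 11 g110 g125

theorem g127 : Holds2 (esA Q23a) (esB8 Q23a) 19 [⟨1, 0, 1, 1⟩, ⟨1, 0, 1, 1⟩, ⟨1, 0, 1, 3⟩] [⟨4, 3, 1, 1⟩, ⟨2, 1, 1, 1⟩, ⟨1, 2, 2, 5⟩, ⟨7, 12, 1, 2⟩] :=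
  Holds2.split 1 4 3 g109 g126

theorem g128 : Holds2 (esA Q23a) (esB8 Q23a) 19 [⟨1, 0, 1, 1⟩, ⟨1, 0, 1, 1⟩, ⟨1, 0, 1, 3⟩] [⟨4, 3, 1, 1⟩, ⟨2, 1, 1, 1⟩, ⟨2, 5, 1, 3⟩, ⟨7, 12, 1, 2⟩] :=
  Holds2.of_run2 c66

theorem g129 : Holds2 (esA Q23a) (esB8 Q23a) 19 [⟨1, 0, 1, 1⟩, ⟨1, 0, 1, 1⟩, ⟨1, 0, 1, 3⟩] [⟨4, 3, 1, 1⟩, ⟨2, 1, 1, 1⟩, ⟨1, 2, 1, 3⟩, ⟨7, 12, 1, 2⟩] :=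
  Holds2.split 2 2 5 g127 g128

theorem g130 : Holds2 (esA Q23a) (esB8 Q23a) 19 [⟨1, 0, 1, 1⟩, ⟨1, 0, 1, 1⟩, ⟨1, 0, 1, 3⟩] [⟨2, 1, 1, 1⟩, ⟨2, 1, 1, 1⟩, ⟨1, 2, 1, 3⟩, ⟨7, 12, 1, 2⟩] :=
  Holds2.split 0 4 3 g108 g129

theorem g131 : Holds2 (esA Q23a) (esB8 Q23a) 19 [⟨1, 0, 1, 1⟩, ⟨1, 0, 1, 1⟩, ⟨1, 0, 1, 3⟩] [⟨2, 1, 1, 1⟩, ⟨1, 0, 1, 1⟩, ⟨1, 2, 1, 3⟩, ⟨7, 12, 1, 2⟩] :=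
  Holds2.split 1 2 1 g73 g130

theorem g132 : Holds2 (esA Q23a) (esB8 Q23a) 19 [⟨1, 0, 1, 1⟩, ⟨1, 0, 1, 1⟩, ⟨1, 0, 1, 3⟩] [⟨1, 0, 1, 1⟩, ⟨1, 0, 1, 1⟩, ⟨1, 2, 1, 3⟩, ⟨7, 12, 1, 2⟩] :=
  Holds2.split 0 2 1 g72 g131

end Crest.Agent.R310.Cert.Q23aCert

theorem Crest.Agent.R310.Cert.holdsQ23a : Holds2 (esA Q23a) (esB8 Q23a) 19 [⟨1, 0, 1, 1⟩, ⟨1, 0, 1, 1⟩, ⟨1, 0, 1, 3⟩] [⟨1, 0, 1, 1⟩, ⟨1, 0, 1, 1⟩, ⟨1, 2, 1, 3⟩, ⟨7, 12, 1, 2⟩] :=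
  Crest.Agent.R310.Cert.Q23aCert.g132
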