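import Crest.Agent.Lib.PolyBB.Basic
import Crest.Agent.R310.N.Q23bC0
import Crest.Agent.R310.N.Q23bC1
import Crest.Agent.R310.N.Q23bC2
import Crest.Agent.R310.N.Q23bC3
import Crest.Agent.R310.N.Q23bC4
import Crest.Agent.R310.N.Q23bC5
import Crest.Agent.R310.N.Q23bC6
import Crest.Agent.R310.N.Q23bC7
import Crest.Agent.R310.N.Q23bC8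
import Crest.Agent.R310.N.Q23bC9
import Crest.Agent.R310.N.Q23bC10
import Crest.Agent.R310.N.Q23bC11

set_option autoImplicit false
set_option maxRecDepth 100000
set_option Elab.async false

open Crest.Agent.Lib.PolyBB

namespace Crest.Agent.R310.Cert.Q23bCert

theorem g0 : Holds2 (esA Q23b) (esB8 Q23b) 19 [⟨1, 0, 1, 1⟩, ⟨1, 0, 1, 1⟩, ⟨1, 0, 1, 3⟩] [⟨1, 0, 2, 1⟩, ⟨1, 0, 2, 1⟩, ⟨1, 2, 1, 3⟩, ⟨7, 12, 1, 2⟩] :=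
  Holds2.of_run2 c0

theorem g1 : Holds2 (esA Q23b) (esB8 Q23b) 19 [⟨1, 0, 1, 1⟩, ⟨1, 0, 1, 1⟩, ⟨1, 0, 1, 3⟩] [⟨1, 0, 2, 1⟩, ⟨2, 1, 4, 3⟩, ⟨1, 2, 4, 9⟩, ⟨7, 12, 1, 2⟩] :=
  Holds2.of_run2 c1

theorem g2 : Holds2 (esA Q23b) (esB8 Q23b) 19 [⟨1, 0, 1, 1⟩, ⟨1, 0, 1, 1⟩, ⟨1, 0, 1, 3⟩] [⟨1, 0, 2, 1⟩, ⟨4, 3, 1, 1⟩, ⟨1, 2, 4, 9⟩, ⟨7, 12, 6, 11⟩] :=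
  Holds2.of_run2 c2

theorem g3 : Holds2 (esA Q23b) (esB8 Q23b) 19 [⟨1, 0, 1, 1⟩, ⟨1, 0, 1, 1⟩, ⟨1, 0, 1, 3⟩] [⟨1, 0, 4, 1⟩, ⟨4, 3, 1, 1⟩, ⟨1, 2, 4, 9⟩, ⟨6, 11, 11, 21⟩] :=
  Holds2.of_run2 c3

theorem g4 : Holds2 (esA Q23b) (esB8 Q23b) 19 [⟨1, 0, 1, 1⟩, ⟨1, 0, 1, 1⟩, ⟨1, 0, 1, 3⟩] [⟨4, 1, 8, 3⟩, ⟨4, 3, 1, 1⟩, ⟨1, 2, 4, 9⟩, ⟨6, 11, 11, 21⟩] :=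
  Holds2.of_run2 c4

theorem g5 : Holds2 (esA Q23b) (esB8 Q23b) 19 [⟨1, 0, 1, 1⟩, ⟨1, 0, 1, 1⟩, ⟨1, 0, 1, 3⟩] [⟨8, 3, 7, 3⟩, ⟨4, 3, 1, 1⟩, ⟨1, 2, 4, 9⟩, ⟨6, 11, 11, 21⟩] :=
  Holds2.of_run2 c5

theorem g6 : Holds2 (esA Q23b) (esB8 Q23b) 19 [⟨1, 0, 1, 1⟩, ⟨1, 0, 1, 1⟩, ⟨1, 0, 1, 3⟩] [⟨7, 3, 13, 6⟩, ⟨4, 3, 1, 1⟩, ⟨1, 2, 4, 9⟩, ⟨6, 11, 11, 21⟩] :=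
  Holds2.of_run2 c6

theorem g7 : Holds2 (esA Q23b) (esB8 Q23b) 19 [⟨1, 0, 1, 1⟩, ⟨1, 0, 1, 1⟩, ⟨1, 0, 1, 3⟩] [⟨13, 6, 23, 11⟩, ⟨4, 3, 1, 1⟩, ⟨1, 2, 4, 9⟩, ⟨6, 11, 11, 21⟩] :=
  Holds2.of_run2 c7

theorem g8 : Holds2 (esA Q23b) (esB8 Q23b) 19 [⟨1, 0, 1, 1⟩, ⟨1, 0, 1, 1⟩, ⟨1, 0, 1, 3⟩] [⟨23, 11, 2, 1⟩, ⟨4, 3, 1, 1⟩, ⟨1, 2, 4, 9⟩, ⟨6, 11, 11, 21⟩] :=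
  Holds2.of_run2 c8

theorem g9 : Holds2 (esA Q23b) (esB8 Q23b) 19 [⟨1, 0, 1, 1⟩, ⟨1, 0, 1, 1⟩, ⟨1, 0, 1, 3⟩] [⟨13, 6, 2, 1⟩, ⟨4, 3, 1, 1⟩, ⟨1, 2, 4, 9⟩, ⟨6, 11, 11, 21⟩] :=
  Holds2.split 0 23 11 g7 g8

theorem g10 : Holds2 (esA Q23b) (esB8 Q23b) 19 [⟨1, 0, 1, 1⟩, ⟨1, 0, 1, 1⟩, ⟨1, 0, 1, 3⟩] [⟨7, 3, 2, 1⟩, ⟨4, 3, 1, 1⟩, ⟨1, 2, 4, 9⟩, ⟨6, 11, 11, 21⟩] :=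
  Holds2.split 0 13 6 g6 g9

theorem g11 : Holds2 (esA Q23b) (esB8 Q23b) 19 [⟨1, 0, 1, 1⟩, ⟨1, 0, 1, 1⟩, ⟨1, 0, 1, 3⟩] [⟨8, 3, 2, 1⟩, ⟨4, 3, 1, 1⟩, ⟨1, 2, 4, 9⟩, ⟨6, 11, 11, 21⟩] :=
  Holds2.split 0 7 3 g5 g10

theorem g12 : Holds2 (esA Q23b) (esB8 Q23b) 19 [⟨1, 0, 1, 1⟩, ⟨1, 0, 1, 1⟩, ⟨1, 0, 1, 3⟩] [⟨4, 1, 2, 1⟩, ⟨4, 3, 1, 1⟩, ⟨1, 2, 4, 9⟩, ⟨6, 11, 11, 21⟩] :=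
  Holds2.split 0 8 3 g4 g11

theorem g13 : Holds2 (esA Q23b) (esB8 Q23b) 19 [⟨1, 0, 1, 1⟩, ⟨1, 0, 1, 1⟩, ⟨1, 0, 1, 3⟩] [⟨1, 0, 2, 1⟩, ⟨4, 3, 1, 1⟩, ⟨1, 2, 4, 9⟩, ⟨6, 11, 11, 21⟩] :=
  Holds2.split 0 4 1 g3 g12

theorem g14 : Holds2 (esA Q23b) (esB8 Q23b) 19 [⟨1, 0, 1, 1⟩, ⟨1, 0, 1, 1⟩, ⟨1, 0, 1, 3⟩] [⟨1, 0, 2, 1⟩, ⟨4, 3, 7, 6⟩, ⟨1, 2, 7, 15⟩, ⟨11, 21, 1, 2⟩] :=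
  Holds2.of_run2 c9

theorem g15 : Holds2 (esA Q23b) (esB8 Q23b) 19 [⟨1, 0, 1, 1⟩, ⟨1, 0, 1, 1⟩, ⟨1, 0, 1, 3⟩] [⟨1, 0, 4, 1⟩, ⟨7, 6, 1, 1⟩, ⟨1, 2, 7, 15⟩, ⟨11, 21, 1, 2⟩] :=
  Holds2.of_run2 c10

theorem g16 : Holds2 (esA Q23b) (esB8 Q23b) 19 [⟨1, 0, 1, 1⟩, ⟨1, 0, 1, 1⟩, ⟨1, 0, 1, 3⟩] [⟨4, 1, 13, 4⟩, ⟨7, 6, 1, 1⟩, ⟨1, 2, 7, 15⟩, ⟨11, 21, 19, 37⟩] :=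
  Holds2.of_run2 c11

theorem g17 : Holds2 (esA Q23b) (esB8 Q23b) 19 [⟨1, 0, 1, 1⟩, ⟨1, 0, 1, 1⟩, ⟨1, 0, 1, 3⟩] [⟨13, 4, 8, 3⟩, ⟨7, 6, 1, 1⟩, ⟨1, 2, 12, 25⟩, ⟨11, 21, 14, 27⟩] :=
  Holds2.of_run2 c12

theorem g18 : Holds2 (esA Q23b) (esB8 Q23b) 19 [⟨1, 0, 1, 1⟩, ⟨1, 0, 1, 1⟩, ⟨1, 0, 1, 3⟩] [⟨13, 4, 26, 9⟩, ⟨7, 6, 12, 11⟩, ⟨1, 2, 12, 25⟩, ⟨14, 27, 19, 37⟩] :=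
  Holds2.of_run2 c13

theorem g19 : Holds2 (esA Q23b) (esB8 Q23b) 19 [⟨1, 0, 1, 1⟩, ⟨1, 0, 1, 1⟩, ⟨1, 0, 1, 3⟩] [⟨13, 4, 26, 9⟩, ⟨12, 11, 21, 20⟩, ⟨1, 2, 12, 25⟩, ⟨14, 27, 19, 37⟩] :=
  Holds2.of_run2 c14

theorem g20 : Holds2 (esA Q23b) (esB8 Q23b) 19 [⟨1, 0, 1, 1⟩, ⟨1, 0, 1, 1⟩, ⟨1, 0, 1, 3⟩] [⟨13, 4, 26, 9⟩, ⟨21, 20, 26, 25⟩, ⟨1, 2, 12, 25⟩, ⟨14, 27, 19, 37⟩] :=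
  Holds2.of_run2 c15

theorem g21 : Holds2 (esA Q23b) (esB8 Q23b) 19 [⟨1, 0, 1, 1⟩, ⟨1, 0, 1, 1⟩, ⟨1, 0, 1, 3⟩] [⟨13, 4, 26, 9⟩, ⟨26, 25, 36, 35⟩, ⟨1, 2, 12, 25⟩, ⟨14, 27, 19, 37⟩] :=
  Holds2.of_run2 c16

theorem g22 : Holds2 (esA Q23b) (esB8 Q23b) 19 [⟨1, 0, 1, 1⟩, ⟨1, 0, 1, 1⟩, ⟨1, 0, 1, 3⟩] [⟨13, 4, 26, 9⟩, ⟨21, 20, 36, 35⟩, ⟨1, 2, 12, 25⟩, ⟨14, 27, 19, 37⟩] :=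
  Holds2.split 1 26 25 g20 g21

theorem g23 : Holds2 (esA Q23b) (esB8 Q23b) 19 [⟨1, 0, 1, 1⟩, ⟨1, 0, 1, 1⟩, ⟨1, 0, 1, 3⟩] [⟨13, 4, 26, 9⟩, ⟨36, 35, 62, 61⟩, ⟨1, 2, 12, 25⟩, ⟨14, 27, 19, 37⟩] :=
  Holds2.of_run2 c17

theorem g24 : Holds2 (esA Q23b) (esB8 Q23b) 19 [⟨1, 0, 1, 1⟩, ⟨1, 0, 1, 1⟩, ⟨1, 0, 1, 3⟩] [⟨13, 4, 26, 9⟩, ⟨62, 61, 107, 106⟩, ⟨1, 2, 12, 25⟩, ⟨14, 27, 19, 37⟩] :=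
  Holds2.of_run2 c18

theorem g25 : Holds2 (esA Q23b) (esB8 Q23b) 19 [⟨1, 0, 1, 1⟩, ⟨1, 0, 1, 1⟩, ⟨1, 0, 1, 3⟩] [⟨13, 4, 26, 9⟩, ⟨107, 106, 1, 1⟩, ⟨1, 2, 12, 25⟩, ⟨14, 27, 19, 37⟩] :=
  Holds2.of_run2 c19

theorem g26 : Holds2 (esA Q23b) (esB8 Q23b) 19 [⟨1, 0, 1, 1⟩, ⟨1, 0, 1, 1⟩, ⟨1, 0, 1, 3⟩] [⟨13, 4, 26, 9⟩, ⟨62, 61, 1, 1⟩, ⟨1, 2, 12, 25⟩, ⟨14, 27, 19, 37⟩] :=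
  Holds2.split 1 107 106 g24 g25

theorem g27 : Holds2 (esA Q23b) (esB8 Q23b) 19 [⟨1, 0, 1, 1⟩, ⟨1, 0, 1, 1⟩, ⟨1, 0, 1, 3⟩] [⟨13, 4, 26, 9⟩, ⟨36, 35, 1, 1⟩, ⟨1, 2, 12, 25⟩, ⟨14, 27, 19, 37⟩] :=
  Holds2.split 1 62 61 g23 g26

theorem g28 : Holds2 (esA Q23b) (esB8 Q23b) 19 [⟨1, 0, 1, 1⟩, ⟨1, 0, 1, 1⟩, ⟨1, 0, 1, 3⟩] [⟨13, 4, 26, 9⟩, ⟨21, 20, 1, 1⟩, ⟨1, 2, 12, 25⟩, ⟨14, 27, 19, 37⟩] :=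
  Holds2.split 1 36 35 g22 g27

theorem g29 : Holds2 (esA Q23b) (esB8 Q23b) 19 [⟨1, 0, 1, 1⟩, ⟨1, 0, 1, 1⟩, ⟨1, 0, 1, 3⟩] [⟨13, 4, 26, 9⟩, ⟨12, 11, 1, 1⟩, ⟨1, 2, 12, 25⟩, ⟨14, 27, 19, 37⟩] :=
  Holds2.split 1 21 20 g19 g28

theorem g30 : Holds2 (esA Q23b) (esB8 Q23b) 19 [⟨1, 0, 1, 1⟩, ⟨1, 0, 1, 1⟩, ⟨1, 0, 1, 3⟩] [⟨13, 4, 26, 9⟩, ⟨7, 6, 1, 1⟩, ⟨1, 2, 12, 25⟩, ⟨14, 27, 19, 37⟩] :=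
  Holds2.split 1 12 11 g18 g29

theorem g31 : Holds2 (esA Q23b) (esB8 Q23b) 19 [⟨1, 0, 1, 1⟩, ⟨1, 0, 1, 1⟩, ⟨1, 0, 1, 3⟩] [⟨26, 9, 8, 3⟩, ⟨7, 6, 1, 1⟩, ⟨1, 2, 12, 25⟩, ⟨14, 27, 19, 37⟩] :=
  Holds2.of_run2 c20

theorem g32 : Holds2 (esA Q23b) (esB8 Q23b) 19 [⟨1, 0, 1, 1⟩, ⟨1, 0, 1, 1⟩, ⟨1, 0, 1, 3⟩] [⟨13, 4, 8, 3⟩, ⟨7, 6, 1, 1⟩, ⟨1, 2, 12, 25⟩, ⟨14, 27, 19, 37⟩] :=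
  Holds2.split 0 26 9 g30 g31

theorem g33 : Holds2 (esA Q23b) (esB8 Q23b) 19 [⟨1, 0, 1, 1⟩, ⟨1, 0, 1, 1⟩, ⟨1, 0, 1, 3⟩] [⟨13, 4, 8, 3⟩, ⟨7, 6, 1, 1⟩, ⟨1, 2, 12, 25⟩, ⟨11, 21, 19, 37⟩] :=
  Holds2.split 3 14 27 g17 g32

theorem g34 : Holds2 (esA Q23b) (esB8 Q23b) 19 [⟨1, 0, 1, 1⟩, ⟨1, 0, 1, 1⟩, ⟨1, 0, 1, 3⟩] [⟨13, 4, 8, 3⟩, ⟨7, 6, 1, 1⟩, ⟨12, 25, 7, 15⟩, ⟨11, 21, 19, 37⟩] :=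
  Holds2.of_run2 c21

theorem g35 : Holds2 (esA Q23b) (esB8 Q23b) 19 [⟨1, 0, 1, 1⟩, ⟨1, 0, 1, 1⟩, ⟨1, 0, 1, 3⟩] [⟨13, 4, 8, 3⟩, ⟨7, 6, 1, 1⟩, ⟨1, 2, 7, 15⟩, ⟨11, 21, 19, 37⟩] :=
  Holds2.split 2 12 25 g33 g34

theorem g36 : Holds2 (esA Q23b) (esB8 Q23b) 19 [⟨1, 0, 1, 1⟩, ⟨1, 0, 1, 1⟩, ⟨1, 0, 1, 3⟩] [⟨4, 1, 8, 3⟩, ⟨7, 6, 1, 1⟩, ⟨1, 2, 7, 15⟩, ⟨11, 21, 19, 37⟩] :=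
  Holds2.split 0 13 4 g16 g35

theorem g37 : Holds2 (esA Q23b) (esB8 Q23b) 19 [⟨1, 0, 1, 1⟩, ⟨1, 0, 1, 1⟩, ⟨1, 0, 1, 3⟩] [⟨8, 3, 18, 7⟩, ⟨7, 6, 1, 1⟩, ⟨1, 2, 7, 15⟩, ⟨11, 21, 19, 37⟩] :=
  Holds2.of_run2 c22

theorem g38 : Holds2 (esA Q23b) (esB8 Q23b) 19 [⟨1, 0, 1, 1⟩, ⟨1, 0, 1, 1⟩, ⟨1, 0, 1, 3⟩] [⟨18, 7, 5, 2⟩, ⟨7, 6, 1, 1⟩, ⟨1, 2, 7, 15⟩, ⟨11, 21, 19, 37⟩] :=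
  Holds2.of_run2 c23

theorem g39 : Holds2 (esA Q23b) (esB8 Q23b) 19 [⟨1, 0, 1, 1⟩, ⟨1, 0, 1, 1⟩, ⟨1, 0, 1, 3⟩] [⟨8, 3, 5, 2⟩, ⟨7, 6, 1, 1⟩, ⟨1, 2, 7, 15⟩, ⟨11, 21, 19, 37⟩] :=
  Holds2.split 0 18 7 g37 g38

theorem g40 : Holds2 (esA Q23b) (esB8 Q23b) 19 [⟨1, 0, 1, 1⟩, ⟨1, 0, 1, 1⟩, ⟨1, 0, 1, 3⟩] [⟨5, 2, 12, 5⟩, ⟨7, 6, 1, 1⟩, ⟨1, 2, 7, 15⟩, ⟨11, 21, 19, 37⟩] :=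
  Holds2.of_run2 c24

theorem g41 : Holds2 (esA Q23b) (esB8 Q23b) 19 [⟨1, 0, 1, 1⟩, ⟨1, 0, 1, 1⟩, ⟨1, 0, 1, 3⟩] [⟨12, 5, 26, 11⟩, ⟨7, 6, 1, 1⟩, ⟨1, 2, 7, 15⟩, ⟨11, 21, 19, 37⟩] :=
  Holds2.of_run2 c25

theorem g42 : Holds2 (esA Q23b) (esB8 Q23b) 19 [⟨1, 0, 1, 1⟩, ⟨1, 0, 1, 1⟩, ⟨1, 0, 1, 3⟩] [⟨26, 11, 7, 3⟩, ⟨7, 6, 1, 1⟩, ⟨1, 2, 7, 15⟩, ⟨11, 21, 19, 37⟩] :=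
  Holds2.of_run2 c26

theorem g43 : Holds2 (esA Q23b) (esB8 Q23b) 19 [⟨1, 0, 1, 1⟩, ⟨1, 0, 1, 1⟩, ⟨1, 0, 1, 3⟩] [⟨12, 5, 7, 3⟩, ⟨7, 6, 1, 1⟩, ⟨1, 2, 7, 15⟩, ⟨11, 21, 19, 37⟩] :=
  Holds2.split 0 26 11 g41 g42

theorem g44 : Holds2 (esA Q23b) (esB8 Q23b) 19 [⟨1, 0, 1, 1⟩, ⟨1, 0, 1, 1⟩, ⟨1, 0, 1, 3⟩] [⟨5, 2, 7, 3⟩, ⟨7, 6, 1, 1⟩, ⟨1, 2, 7, 15⟩, ⟨11, 21, 19, 37⟩] :=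
  Holds2.split 0 12 5 g40 g43

theorem g45 : Holds2 (esA Q23b) (esB8 Q23b) 19 [⟨1, 0, 1, 1⟩, ⟨1, 0, 1, 1⟩, ⟨1, 0, 1, 3⟩] [⟨8, 3, 7, 3⟩, ⟨7, 6, 1, 1⟩, ⟨1, 2, 7, 15⟩, ⟨11, 21, 19, 37⟩] :=
  Holds2.split 0 5 2 g39 g44

theorem g46 : Holds2 (esA Q23b) (esB8 Q23b) 19 [⟨1, 0, 1, 1⟩, ⟨1, 0, 1, 1⟩, ⟨1, 0, 1, 3⟩] [⟨7, 3, 9, 4⟩, ⟨7, 6, 1, 1⟩, ⟨1, 2, 7, 15⟩, ⟨11, 21, 19, 37⟩] :=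
  Holds2.of_run2 c27

theorem g47 : Holds2 (esA Q23b) (esB8 Q23b) 19 [⟨1, 0, 1, 1⟩, ⟨1, 0, 1, 1⟩, ⟨1, 0, 1, 3⟩] [⟨9, 4, 13, 6⟩, ⟨7, 6, 1, 1⟩, ⟨1, 2, 7, 15⟩, ⟨11, 21, 19, 37⟩] :=
  Holds2.of_run2 c28

theorem g48 : Holds2 (esA Q23b) (esB8 Q23b) 19 [⟨1, 0, 1, 1⟩, ⟨1, 0, 1, 1⟩, ⟨1, 0, 1, 3⟩] [⟨7, 3, 13, 6⟩, ⟨7, 6, 1, 1⟩, ⟨1, 2, 7, 15⟩, ⟨11, 21, 19, 37⟩] :=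
  Holds2.split 0 9 4 g46 g47

theorem g49 : Holds2 (esA Q23b) (esB8 Q23b) 19 [⟨1, 0, 1, 1⟩, ⟨1, 0, 1, 1⟩, ⟨1, 0, 1, 3⟩] [⟨13, 6, 23, 11⟩, ⟨7, 6, 1, 1⟩, ⟨1, 2, 7, 15⟩, ⟨11, 21, 19, 37⟩] :=
  Holds2.of_run2 c29

theorem g50 : Holds2 (esA Q23b) (esB8 Q23b) 19 [⟨1, 0, 1, 1⟩, ⟨1, 0, 1, 1⟩, ⟨1, 0, 1, 3⟩] [⟨23, 11, 2, 1⟩, ⟨7, 6, 1, 1⟩, ⟨1, 2, 7, 15⟩, ⟨11, 21, 19, 37⟩] :=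
  Holds2.of_run2 c30

theorem g51 : Holds2 (esA Q23b) (esB8 Q23b) 19 [⟨1, 0, 1, 1⟩, ⟨1, 0, 1, 1⟩, ⟨1, 0, 1, 3⟩] [⟨13, 6, 2, 1⟩, ⟨7, 6, 1, 1⟩, ⟨1, 2, 7, 15⟩, ⟨11, 21, 19, 37⟩] :=
  Holds2.split 0 23 11 g49 g50

theorem g52 : Holds2 (esA Q23b) (esB8 Q23b) 19 [⟨1, 0, 1, 1⟩, ⟨1, 0, 1, 1⟩, ⟨1, 0, 1, 3⟩] [⟨7, 3, 2, 1⟩, ⟨7, 6, 1, 1⟩, ⟨1, 2, 7, 15⟩, ⟨11, 21, 19, 37⟩] :=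
  Holds2.split 0 13 6 g48 g51

theorem g53 : Holds2 (esA Q23b) (esB8 Q23b) 19 [⟨1, 0, 1, 1⟩, ⟨1, 0, 1, 1⟩, ⟨1, 0, 1, 3⟩] [⟨8, 3, 2, 1⟩, ⟨7, 6, 1, 1⟩, ⟨1, 2, 7, 15⟩, ⟨11, 21, 19, 37⟩] :=
  Holds2.split 0 7 3 g45 g52

theorem g54 : Holds2 (esA Q23b) (esB8 Q23b) 19 [⟨1, 0, 1, 1⟩, ⟨1, 0, 1, 1⟩, ⟨1, 0, 1, 3⟩] [⟨4, 1, 2, 1⟩, ⟨7, 6, 1, 1⟩, ⟨1, 2, 7, 15⟩, ⟨11, 21, 19, 37⟩] :=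
  Holds2.split 0 8 3 g36 g53

theorem g55 : Holds2 (esA Q23b) (esB8 Q23b) 19 [⟨1, 0, 1, 1⟩, ⟨1, 0, 1, 1⟩, ⟨1, 0, 1, 3⟩] [⟨4, 1, 2, 1⟩, ⟨7, 6, 12, 11⟩, ⟨1, 2, 12, 25⟩, ⟨19, 37, 1, 2⟩] :=
  Holds2.of_run2 c31

theorem g56 : Holds2 (esA Q23b) (esB8 Q23b) 19 [⟨1, 0, 1, 1⟩, ⟨1, 0, 1, 1⟩, ⟨1, 0, 1, 3⟩] [⟨4, 1, 13, 4⟩, ⟨12, 11, 1, 1⟩, ⟨1, 2, 12, 25⟩, ⟨19, 37, 1, 2⟩] :=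
  Holds2.of_run2 c32

theorem g57 : Holds2 (esA Q23b) (esB8 Q23b) 19 [⟨1, 0, 1, 1⟩, ⟨1, 0, 1, 1⟩, ⟨1, 0, 1, 3⟩] [⟨13, 4, 8, 3⟩, ⟨12, 11, 1, 1⟩, ⟨1, 2, 12, 25⟩, ⟨19, 37, 1, 2⟩] :=
  Holds2.of_run2 c33

theorem g58 : Holds2 (esA Q23b) (esB8 Q23b) 19 [⟨1, 0, 1, 1⟩, ⟨1, 0, 1, 1⟩, ⟨1, 0, 1, 3⟩] [⟨4, 1, 8, 3⟩, ⟨12, 11, 1, 1⟩, ⟨1, 2, 12, 25⟩, ⟨19, 37, 1, 2⟩] :=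
  Holds2.split 0 13 4 g56 g57

theorem g59 : Holds2 (esA Q23b) (esB8 Q23b) 19 [⟨1, 0, 1, 1⟩, ⟨1, 0, 1, 1⟩, ⟨1, 0, 1, 3⟩] [⟨8, 3, 5, 2⟩, ⟨12, 11, 1, 1⟩, ⟨1, 2, 12, 25⟩, ⟨19, 37, 33, 65⟩] :=
  Holds2.of_run2 c34

theorem g60 : Holds2 (esA Q23b) (esB8 Q23b) 19 [⟨1, 0, 1, 1⟩, ⟨1, 0, 1, 1⟩, ⟨1, 0, 1, 3⟩] [⟨5, 2, 7, 3⟩, ⟨12, 11, 1, 1⟩, ⟨1, 2, 12, 25⟩, ⟨19, 37, 33, 65⟩] :=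
  Holds2.of_run2 c35

theorem g61 : Holds2 (esA Q23b) (esB8 Q23b) 19 [⟨1, 0, 1, 1⟩, ⟨1, 0, 1, 1⟩, ⟨1, 0, 1, 3⟩] [⟨8, 3, 7, 3⟩, ⟨12, 11, 1, 1⟩, ⟨1, 2, 12, 25⟩, ⟨19, 37, 33, 65⟩] :=
  Holds2.split 0 5 2 g59 g60

theorem g62 : Holds2 (esA Q23b) (esB8 Q23b) 19 [⟨1, 0, 1, 1⟩, ⟨1, 0, 1, 1⟩, ⟨1, 0, 1, 3⟩] [⟨7, 3, 2, 1⟩, ⟨12, 11, 1, 1⟩, ⟨1, 2, 12, 25⟩, ⟨19, 37, 33, 65⟩] :=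
  Holds2.of_run2 c36

theorem g63 : Holds2 (esA Q23b) (esB8 Q23b) 19 [⟨1, 0, 1, 1⟩, ⟨1, 0, 1, 1⟩, ⟨1, 0, 1, 3⟩] [⟨8, 3, 2, 1⟩, ⟨12, 11, 1, 1⟩, ⟨1, 2, 12, 25⟩, ⟨19, 37, 33, 65⟩] :=
  Holds2.split 0 7 3 g61 g62

theorem g64 : Holds2 (esA Q23b) (esB8 Q23b) 19 [⟨1, 0, 1, 1⟩, ⟨1, 0, 1, 1⟩, ⟨1, 0, 1, 3⟩] [⟨8, 3, 2, 1⟩, ⟨12, 11, 21, 20⟩, ⟨1, 2, 21, 43⟩, ⟨33, 65, 1, 2⟩] :=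
  Holds2.of_run2 c37

theorem g65 : Holds2 (esA Q23b) (esB8 Q23b) 19 [⟨1, 0, 1, 1⟩, ⟨1, 0, 1, 1⟩, ⟨1, 0, 1, 3⟩] [⟨8, 3, 18, 7⟩, ⟨21, 20, 1, 1⟩, ⟨1, 2, 21, 43⟩, ⟨33, 65, 1, 2⟩] :=
  Holds2.of_run2 c38

theorem g66 : Holds2 (esA Q23b) (esB8 Q23b) 19 [⟨1, 0, 1, 1⟩, ⟨1, 0, 1, 1⟩, ⟨1, 0, 1, 3⟩] [⟨18, 7, 5, 2⟩, ⟨21, 20, 1, 1⟩, ⟨1, 2, 21, 43⟩, ⟨33, 65, 1, 2⟩] :=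
  Holds2.of_run2 c39

theorem g67 : Holds2 (esA Q23b) (esB8 Q23b) 19 [⟨1, 0, 1, 1⟩, ⟨1, 0, 1, 1⟩, ⟨1, 0, 1, 3⟩] [⟨8, 3, 5, 2⟩, ⟨21, 20, 1, 1⟩, ⟨1, 2, 21, 43⟩, ⟨33, 65, 1, 2⟩] :=
  Holds2.split 0 18 7 g65 g66

theorem g68 : Holds2 (esA Q23b) (esB8 Q23b) 19 [⟨1, 0, 1, 1⟩, ⟨1, 0, 1, 1⟩, ⟨1, 0, 1, 3⟩] [⟨5, 2, 12, 5⟩, ⟨21, 20, 1, 1⟩, ⟨1, 2, 21, 43⟩, ⟨33, 65, 57, 113⟩] :=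
  Holds2.of_run2 c40

theorem g69 : Holds2 (esA Q23b) (esB8 Q23b) 19 [⟨1, 0, 1, 1⟩, ⟨1, 0, 1, 1⟩, ⟨1, 0, 1, 3⟩] [⟨5, 2, 12, 5⟩, ⟨21, 20, 1, 1⟩, ⟨1, 2, 21, 43⟩, ⟨57, 113, 1, 2⟩] :=
  Holds2.of_run2 c41

theorem g70 : Holds2 (esA Q23b) (esB8 Q23b) 19 [⟨1, 0, 1, 1⟩, ⟨1, 0, 1, 1⟩, ⟨1, 0, 1, 3⟩] [⟨5, 2, 12, 5⟩, ⟨21, 20, 1, 1⟩, ⟨1, 2, 21, 43⟩, ⟨33, 65, 1, 2⟩] :=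
  Holds2.split 3 57 113 g68 g69

theorem g71 : Holds2 (esA Q23b) (esB8 Q23b) 19 [⟨1, 0, 1, 1⟩, ⟨1, 0, 1, 1⟩, ⟨1, 0, 1, 3⟩] [⟨12, 5, 7, 3⟩, ⟨21, 20, 1, 1⟩, ⟨1, 2, 21, 43⟩, ⟨33, 65, 1, 2⟩] :=
  Holds2.of_run2 c42

theorem g72 : Holds2 (esA Q23b) (esB8 Q23b) 19 [⟨1, 0, 1, 1⟩, ⟨1, 0, 1, 1⟩, ⟨1, 0, 1, 3⟩] [⟨5, 2, 7, 3⟩, ⟨21, 20, 1, 1⟩, ⟨1, 2, 21, 43⟩, ⟨33, 65, 1, 2⟩] :=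
  Holds2.split 0 12 5 g70 g71

theorem g73 : Holds2 (esA Q23b) (esB8 Q23b) 19 [⟨1, 0, 1, 1⟩, ⟨1, 0, 1, 1⟩, ⟨1, 0, 1, 3⟩] [⟨8, 3, 7, 3⟩, ⟨21, 20, 1, 1⟩, ⟨1, 2, 21, 43⟩, ⟨33, 65, 1, 2⟩] :=
  Holds2.split 0 5 2 g67 g72

theorem g74 : Holds2 (esA Q23b) (esB8 Q23b) 19 [⟨1, 0, 1, 1⟩, ⟨1, 0, 1, 1⟩, ⟨1, 0, 1, 3⟩] [⟨7, 3, 2, 1⟩, ⟨21, 20, 1, 1⟩, ⟨1, 2, 21, 43⟩, ⟨33, 65, 1, 2⟩] :=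
  Holds2.of_run2 c43

theorem g75 : Holds2 (esA Q23b) (esB8 Q23b) 19 [⟨1, 0, 1, 1⟩, ⟨1, 0, 1, 1⟩, ⟨1, 0, 1, 3⟩] [⟨8, 3, 2, 1⟩, ⟨21, 20, 1, 1⟩, ⟨1, 2, 21, 43⟩, ⟨33, 65, 1, 2⟩] :=
  Holds2.split 0 7 3 g73 g74

theorem g76 : Holds2 (esA Q23b) (esB8 Q23b) 19 [⟨1, 0, 1, 1⟩, ⟨1, 0, 1, 1⟩, ⟨1, 0, 1, 3⟩] [⟨8, 3, 2, 1⟩, ⟨12, 11, 1, 1⟩, ⟨1, 2, 21, 43⟩, ⟨33, 65, 1, 2⟩] :=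
  Holds2.split 1 21 20 g64 g75

theorem g77 : Holds2 (esA Q23b) (esB8 Q23b) 19 [⟨1, 0, 1, 1⟩, ⟨1, 0, 1, 1⟩, ⟨1, 0, 1, 3⟩] [⟨8, 3, 2, 1⟩, ⟨12, 11, 1, 1⟩, ⟨21, 43, 12, 25⟩, ⟨33, 65, 1, 2⟩] :=
  Holds2.of_run2 c44

theorem g78 : Holds2 (esA Q23b) (esB8 Q23b) 19 [⟨1, 0, 1, 1⟩, ⟨1, 0, 1, 1⟩, ⟨1, 0, 1, 3⟩] [⟨8, 3, 2, 1⟩, ⟨12, 11, 1, 1⟩, ⟨1, 2, 12, 25⟩, ⟨33, 65, 1, 2⟩] :=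
  Holds2.split 2 21 43 g76 g77

theorem g79 : Holds2 (esA Q23b) (esB8 Q23b) 19 [⟨1, 0, 1, 1⟩, ⟨1, 0, 1, 1⟩, ⟨1, 0, 1, 3⟩] [⟨8, 3, 2, 1⟩, ⟨12, 11, 1, 1⟩, ⟨1, 2, 12, 25⟩, ⟨19, 37, 1, 2⟩] :=
  Holds2.split 3 33 65 g63 g78

theorem g80 : Holds2 (esA Q23b) (esB8 Q23b) 19 [⟨1, 0, 1, 1⟩, ⟨1, 0, 1, 1⟩, ⟨1, 0, 1, 3⟩] [⟨4, 1, 2, 1⟩, ⟨12, 11, 1, 1⟩, ⟨1, 2, 12, 25⟩, ⟨19, 37, 1, 2⟩] :=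
  Holds2.split 0 8 3 g58 g79

theorem g81 : Holds2 (esA Q23b) (esB8 Q23b) 19 [⟨1, 0, 1, 1⟩, ⟨1, 0, 1, 1⟩, ⟨1, 0, 1, 3⟩] [⟨4, 1, 2, 1⟩, ⟨7, 6, 1, 1⟩, ⟨1, 2, 12, 25⟩, ⟨19, 37, 1, 2⟩] :=
  Holds2.split 1 12 11 g55 g80

theorem g82 : Holds2 (esA Q23b) (esB8 Q23b) 19 [⟨1, 0, 1, 1⟩, ⟨1, 0, 1, 1⟩, ⟨1, 0, 1, 3⟩] [⟨4, 1, 2, 1⟩, ⟨7, 6, 1, 1⟩, ⟨12, 25, 7, 15⟩, ⟨19, 37, 1, 2⟩] :=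
  Holds2.of_run2 c45

theorem g83 : Holds2 (esA Q23b) (esB8 Q23b) 19 [⟨1, 0, 1, 1⟩, ⟨1, 0, 1, 1⟩, ⟨1, 0, 1, 3⟩] [⟨4, 1, 2, 1⟩, ⟨7, 6, 1, 1⟩, ⟨1, 2, 7, 15⟩, ⟨19, 37, 1, 2⟩] :=
  Holds2.split 2 12 25 g81 g82

theorem g84 : Holds2 (esA Q23b) (esB8 Q23b) 19 [⟨1, 0, 1, 1⟩, ⟨1, 0, 1, 1⟩, ⟨1, 0, 1, 3⟩] [⟨4, 1, 2, 1⟩, ⟨7, 6, 1, 1⟩, ⟨1, 2, 7, 15⟩, ⟨11, 21, 1, 2⟩] :=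
  Holds2.split 3 19 37 g54 g83

theorem g85 : Holds2 (esA Q23b) (esB8 Q23b) 19 [⟨1, 0, 1, 1⟩, ⟨1, 0, 1, 1⟩, ⟨1, 0, 1, 3⟩] [⟨1, 0, 2, 1⟩, ⟨7, 6, 1, 1⟩, ⟨1, 2, 7, 15⟩, ⟨11, 21, 1, 2⟩] :=
  Holds2.split 0 4 1 g15 g84

theorem g86 : Holds2 (esA Q23b) (esB8 Q23b) 19 [⟨1, 0, 1, 1⟩, ⟨1, 0, 1, 1⟩, ⟨1, 0, 1, 3⟩] [⟨1, 0, 2, 1⟩, ⟨4, 3, 1, 1⟩, ⟨1, 2, 7, 15⟩, ⟨11, 21, 1, 2⟩] :=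
  Holds2.split 1 7 6 g14 g85

theorem g87 : Holds2 (esA Q23b) (esB8 Q23b) 19 [⟨1, 0, 1, 1⟩, ⟨1, 0, 1, 1⟩, ⟨1, 0, 1, 3⟩] [⟨1, 0, 2, 1⟩, ⟨4, 3, 1, 1⟩, ⟨7, 15, 4, 9⟩, ⟨11, 21, 1, 2⟩] :=
  Holds2.of_run2 c46

theorem g88 : Holds2 (esA Q23b) (esB8 Q23b) 19 [⟨1, 0, 1, 1⟩, ⟨1, 0, 1, 1⟩, ⟨1, 0, 1, 3⟩] [⟨1, 0, 2, 1⟩, ⟨4, 3, 1, 1⟩, ⟨1, 2, 4, 9⟩, ⟨11, 21, 1, 2⟩] :=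
  Holds2.split 2 7 15 g86 g87

theorem g89 : Holds2 (esA Q23b) (esB8 Q23b) 19 [⟨1, 0, 1, 1⟩, ⟨1, 0, 1, 1⟩, ⟨1, 0, 1, 3⟩] [⟨1, 0, 2, 1⟩, ⟨4, 3, 1, 1⟩, ⟨1, 2, 4, 9⟩, ⟨6, 11, 1, 2⟩] :=
  Holds2.split 3 11 21 g13 g88

theorem g90 : Holds2 (esA Q23b) (esB8 Q23b) 19 [⟨1, 0, 1, 1⟩, ⟨1, 0, 1, 1⟩, ⟨1, 0, 1, 3⟩] [⟨1, 0, 2, 1⟩, ⟨4, 3, 1, 1⟩, ⟨1, 2, 4, 9⟩, ⟨7, 12, 1, 2⟩] :=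
  Holds2.split 3 6 11 g2 g89

theorem g91 : Holds2 (esA Q23b) (esB8 Q23b) 19 [⟨1, 0, 1, 1⟩, ⟨1, 0, 1, 1⟩, ⟨1, 0, 1, 3⟩] [⟨1, 0, 2, 1⟩, ⟨2, 1, 1, 1⟩, ⟨1, 2, 4, 9⟩, ⟨7, 12, 1, 2⟩] :=
  Holds2.split 1 4 3 g1 g90

theorem g92 : Holds2 (esA Q23b) (esB8 Q23b) 19 [⟨1, 0, 1, 1⟩, ⟨1, 0, 1, 1⟩, ⟨1, 0, 1, 3⟩] [⟨1, 0, 2, 1⟩, ⟨2, 1, 1, 1⟩, ⟨4, 9, 2, 5⟩, ⟨7, 12, 1, 2⟩] :=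
  Holds2.of_run2 c47

theorem g93 : Holds2 (esA Q23b) (esB8 Q23b) 19 [⟨1, 0, 1, 1⟩, ⟨1, 0, 1, 1⟩, ⟨1, 0, 1, 3⟩] [⟨1, 0, 2, 1⟩, ⟨2, 1, 1, 1⟩, ⟨1, 2, 2, 5⟩, ⟨7, 12, 1, 2⟩] :=
  Holds2.split 2 4 9 g91 g92

theorem g94 : Holds2 (esA Q23b) (esB8 Q23b) 19 [⟨1, 0, 1, 1⟩, ⟨1, 0, 1, 1⟩, ⟨1, 0, 1, 3⟩] [⟨1, 0, 2, 1⟩, ⟨2, 1, 1, 1⟩, ⟨2, 5, 1, 3⟩, ⟨7, 12, 1, 2⟩] :=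
  Holds2.of_run2 c48

theorem g95 : Holds2 (esA Q23b) (esB8 Q23b) 19 [⟨1, 0, 1, 1⟩, ⟨1, 0, 1, 1⟩, ⟨1, 0, 1, 3⟩] [⟨1, 0, 2, 1⟩, ⟨2, 1, 1, 1⟩, ⟨1, 2, 1, 3⟩, ⟨7, 12, 1, 2⟩] :=
  Holds2.split 2 2 5 g93 g94

theorem g96 : Holds2 (esA Q23b) (esB8 Q23b) 19 [⟨1, 0, 1, 1⟩, ⟨1, 0, 1, 1⟩, ⟨1, 0, 1, 3⟩] [⟨1, 0, 2, 1⟩, ⟨1, 0, 1, 1⟩, ⟨1, 2, 1, 3⟩, ⟨7, 12, 1, 2⟩] :=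
  Holds2.split 1 2 1 g0 g95

theorem g97 : Holds2 (esA Q23b) (esB8 Q23b) 19 [⟨1, 0, 1, 1⟩, ⟨1, 0, 1, 1⟩, ⟨1, 0, 1, 3⟩] [⟨2, 1, 1, 1⟩, ⟨1, 0, 2, 1⟩, ⟨1, 2, 1, 3⟩, ⟨7, 12, 1, 2⟩] :=
  Holds2.of_run2 c49

theorem g98 : Holds2 (esA Q23b) (esB8 Q23b) 19 [⟨1, 0, 1, 1⟩, ⟨1, 0, 1, 1⟩, ⟨1, 0, 1, 3⟩] [⟨2, 1, 4, 3⟩, ⟨2, 1, 1, 1⟩, ⟨1, 2, 2, 5⟩, ⟨7, 12, 6, 11⟩] :=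
  Holds2.of_run2 c50

theorem g99 : Holds2 (esA Q23b) (esB8 Q23b) 19 [⟨1, 0, 1, 1⟩, ⟨1, 0, 1, 1⟩, ⟨1, 0, 1, 3⟩] [⟨2, 1, 4, 3⟩, ⟨2, 1, 4, 3⟩, ⟨1, 2, 2, 5⟩, ⟨6, 11, 1, 2⟩] :=
  Holds2.of_run2 c51

theorem g100 : Holds2 (esA Q23b) (esB8 Q23b) 19 [⟨1, 0, 1, 1⟩, ⟨1, 0, 1, 1⟩, ⟨1, 0, 1, 3⟩] [⟨2, 1, 4, 3⟩, ⟨4, 3, 1, 1⟩, ⟨1, 2, 4, 9⟩, ⟨6, 11, 11, 21⟩] :=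
  Holds2.of_run2 c52

theorem g101 : Holds2 (esA Q23b) (esB8 Q23b) 19 [⟨1, 0, 1, 1⟩, ⟨1, 0, 1, 1⟩, ⟨1, 0, 1, 3⟩] [⟨2, 1, 4, 3⟩, ⟨4, 3, 7, 6⟩, ⟨1, 2, 4, 9⟩, ⟨11, 21, 1, 2⟩] :=
  Holds2.of_run2 c53

theorem g102 : Holds2 (esA Q23b) (esB8 Q23b) 19 [⟨1, 0, 1, 1⟩, ⟨1, 0, 1, 1⟩, ⟨1, 0, 1, 3⟩] [⟨2, 1, 4, 3⟩, ⟨7, 6, 1, 1⟩, ⟨1, 2, 7, 15⟩, ⟨11, 21, 19, 37⟩] :=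
  Holds2.of_run2 c54

theorem g103 : Holds2 (esA Q23b) (esB8 Q23b) 19 [⟨1, 0, 1, 1⟩, ⟨1, 0, 1, 1⟩, ⟨1, 0, 1, 3⟩] [⟨2, 1, 4, 3⟩, ⟨7, 6, 12, 11⟩, ⟨1, 2, 12, 25⟩, ⟨19, 37, 1, 2⟩] :=
  Holds2.of_run2 c55

theorem g104 : Holds2 (esA Q23b) (esB8 Q23b) 19 [⟨1, 0, 1, 1⟩, ⟨1, 0, 1, 1⟩, ⟨1, 0, 1, 3⟩] [⟨2, 1, 4, 3⟩, ⟨12, 11, 1, 1⟩, ⟨1, 2, 12, 25⟩, ⟨19, 37, 33, 65⟩] :=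
  Holds2.of_run2 c56

theorem g105 : Holds2 (esA Q23b) (esB8 Q23b) 19 [⟨1, 0, 1, 1⟩, ⟨1, 0, 1, 1⟩, ⟨1, 0, 1, 3⟩] [⟨2, 1, 4, 3⟩, ⟨12, 11, 1, 1⟩, ⟨1, 2, 12, 25⟩, ⟨33, 65, 57, 113⟩] :=
  Holds2.of_run2 c57

theorem g106 : Holds2 (esA Q23b) (esB8 Q23b) 19 [⟨1, 0, 1, 1⟩, ⟨1, 0, 1, 1⟩, ⟨1, 0, 1, 3⟩] [⟨2, 1, 4, 3⟩, ⟨12, 11, 1, 1⟩, ⟨1, 2, 21, 43⟩, ⟨57, 113, 98, 195⟩] :=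
  Holds2.of_run2 c58

theorem g107 : Holds2 (esA Q23b) (esB8 Q23b) 19 [⟨1, 0, 1, 1⟩, ⟨1, 0, 1, 1⟩, ⟨1, 0, 1, 3⟩] [⟨2, 1, 13, 7⟩, ⟨12, 11, 1, 1⟩, ⟨1, 2, 36, 73⟩, ⟨98, 195, 168, 335⟩] :=
  Holds2.of_run2 c59

theorem g108 : Holds2 (esA Q23b) (esB8 Q23b) 19 [⟨1, 0, 1, 1⟩, ⟨1, 0, 1, 1⟩, ⟨1, 0, 1, 3⟩] [⟨2, 1, 13, 7⟩, ⟨12, 11, 1, 1⟩, ⟨1, 2, 62, 125⟩, ⟨168, 335, 288, 575⟩] :=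
  Holds2.of_run2 c60

theorem g109 : Holds2 (esA Q23b) (esB8 Q23b) 19 [⟨1, 0, 1, 1⟩, ⟨1, 0, 1, 1⟩, ⟨1, 0, 1, 3⟩] [⟨2, 1, 23, 12⟩, ⟨12, 11, 1, 1⟩, ⟨1, 2, 107, 215⟩, ⟨288, 575, 494, 987⟩] :=
  Holds2.of_run2 c61

theorem g110 : Holds2 (esA Q23b) (esB8 Q23b) 19 [⟨1, 0, 1, 1⟩, ⟨1, 0, 1, 1⟩, ⟨1, 0, 1, 3⟩] [⟨2, 1, 23, 12⟩, ⟨12, 11, 1, 1⟩, ⟨1, 2, 542, 1085⟩, ⟨494, 987, 1, 2⟩] :=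
  Holds2.of_run2 c62

theorem g111 : Holds2 (esA Q23b) (esB8 Q23b) 19 [⟨1, 0, 1, 1⟩, ⟨1, 0, 1, 1⟩, ⟨1, 0, 1, 3⟩] [⟨2, 1, 23, 12⟩, ⟨12, 11, 1, 1⟩, ⟨542, 1085, 316, 633⟩, ⟨494, 987, 1, 2⟩] :=
  Holds2.of_run2 c63

theorem g112 : Holds2 (esA Q23b) (esB8 Q23b) 19 [⟨1, 0, 1, 1⟩, ⟨1, 0, 1, 1⟩, ⟨1, 0, 1, 3⟩] [⟨2, 1, 23, 12⟩, ⟨12, 11, 1, 1⟩, ⟨1, 2, 316, 633⟩, ⟨494, 987, 1, 2⟩] :=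
  Holds2.split 2 542 1085 g110 g111

theorem g113 : Holds2 (esA Q23b) (esB8 Q23b) 19 [⟨1, 0, 1, 1⟩, ⟨1, 0, 1, 1⟩, ⟨1, 0, 1, 3⟩] [⟨2, 1, 23, 12⟩, ⟨12, 11, 1, 1⟩, ⟨316, 633, 184, 369⟩, ⟨494, 987, 1, 2⟩] :=
  Holds2.of_run2 c64

theorem g114 : Holds2 (esA Q23b) (esB8 Q23b) 19 [⟨1, 0, 1, 1⟩, ⟨1, 0, 1, 1⟩, ⟨1, 0, 1, 3⟩] [⟨2, 1, 23, 12⟩, ⟨12, 11, 1, 1⟩, ⟨1, 2, 184, 369⟩, ⟨494, 987, 1, 2⟩] :=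
  Holds2.split 2 316 633 g112 g113

theorem g115 : Holds2 (esA Q23b) (esB8 Q23b) 19 [⟨1, 0, 1, 1⟩, ⟨1, 0, 1, 1⟩, ⟨1, 0, 1, 3⟩] [⟨2, 1, 23, 12⟩, ⟨12, 11, 1, 1⟩, ⟨184, 369, 107, 215⟩, ⟨494, 987, 1, 2⟩] :=
  Holds2.of_run2 c65

theorem g116 : Holds2 (esA Q23b) (esB8 Q23b) 19 [⟨1, 0, 1, 1⟩, ⟨1, 0, 1, 1⟩, ⟨1, 0, 1, 3⟩] [⟨2, 1, 23, 12⟩, ⟨12, 11, 1, 1⟩, ⟨1, 2, 107, 215⟩, ⟨494, 987, 1, 2⟩] :=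
  Holds2.split 2 184 369 g114 g115

theorem g117 : Holds2 (esA Q23b) (esB8 Q23b) 19 [⟨1, 0, 1, 1⟩, ⟨1, 0, 1, 1⟩, ⟨1, 0, 1, 3⟩] [⟨2, 1, 23, 12⟩, ⟨12, 11, 1, 1⟩, ⟨1, 2, 107, 215⟩, ⟨288, 575, 1, 2⟩] :=
  Holds2.split 3 494 987 g109 g116

theorem g118 : Holds2 (esA Q23b) (esB8 Q23b) 19 [⟨1, 0, 1, 1⟩, ⟨1, 0, 1, 1⟩, ⟨1, 0, 1, 3⟩] [⟨2, 1, 23, 12⟩, ⟨12, 11, 1, 1⟩, ⟨107, 215, 62, 125⟩, ⟨288, 575, 1, 2⟩] :=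
  Holds2.of_run2 c66

theorem g119 : Holds2 (esA Q23b) (esB8 Q23b) 19 [⟨1, 0, 1, 1⟩, ⟨1, 0, 1, 1⟩, ⟨1, 0, 1, 3⟩] [⟨2, 1, 23, 12⟩, ⟨12, 11, 1, 1⟩, ⟨1, 2, 62, 125⟩, ⟨288, 575, 1, 2⟩] :=
  Holds2.split 2 107 215 g117 g118

theorem g120 : Holds2 (esA Q23b) (esB8 Q23b) 19 [⟨1, 0, 1, 1⟩, ⟨1, 0, 1, 1⟩, ⟨1, 0, 1, 3⟩] [⟨23, 12, 13, 7⟩, ⟨12, 11, 1, 1⟩, ⟨1, 2, 62, 125⟩, ⟨288, 575, 1, 2⟩] :=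
  Holds2.of_run2 c67

theorem g121 : Holds2 (esA Q23b) (esB8 Q23b) 19 [⟨1, 0, 1, 1⟩, ⟨1, 0, 1, 1⟩, ⟨1, 0, 1, 3⟩] [⟨2, 1, 13, 7⟩, ⟨12, 11, 1, 1⟩, ⟨1, 2, 62, 125⟩, ⟨288, 575, 1, 2⟩] :=
  Holds2.split 0 23 12 g119 g120

theorem g122 : Holds2 (esA Q23b) (esB8 Q23b) 19 [⟨1, 0, 1, 1⟩, ⟨1, 0, 1, 1⟩, ⟨1, 0, 1, 3⟩] [⟨2, 1, 13, 7⟩, ⟨12, 11, 1, 1⟩, ⟨1, 2, 62, 125⟩, ⟨168, 335, 1, 2⟩] :=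
  Holds2.split 3 288 575 g108 g121

theorem g123 : Holds2 (esA Q23b) (esB8 Q23b) 19 [⟨1, 0, 1, 1⟩, ⟨1, 0, 1, 1⟩, ⟨1, 0, 1, 3⟩] [⟨2, 1, 13, 7⟩, ⟨12, 11, 1, 1⟩, ⟨62, 125, 36, 73⟩, ⟨168, 335, 1, 2⟩] :=
  Holds2.of_run2 c68

theorem g124 : Holds2 (esA Q23b) (esB8 Q23b) 19 [⟨1, 0, 1, 1⟩, ⟨1, 0, 1, 1⟩, ⟨1, 0, 1, 3⟩] [⟨2, 1, 13, 7⟩, ⟨12, 11, 1, 1⟩, ⟨1, 2, 36, 73⟩, ⟨168, 335, 1, 2⟩] :=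
  Holds2.split 2 62 125 g122 g123

theorem g125 : Holds2 (esA Q23b) (esB8 Q23b) 19 [⟨1, 0, 1, 1⟩, ⟨1, 0, 1, 1⟩, ⟨1, 0, 1, 3⟩] [⟨2, 1, 13, 7⟩, ⟨12, 11, 1, 1⟩, ⟨1, 2, 36, 73⟩, ⟨98, 195, 1, 2⟩] :=
  Holds2.split 3 168 335 g107 g124

theorem g126 : Holds2 (esA Q23b) (esB8 Q23b) 19 [⟨1, 0, 1, 1⟩, ⟨1, 0, 1, 1⟩, ⟨1, 0, 1, 3⟩] [⟨13, 7, 9, 5⟩, ⟨12, 11, 1, 1⟩, ⟨1, 2, 62, 125⟩, ⟨98, 195, 1, 2⟩] :=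
  Holds2.of_run2 c69

theorem g127 : Holds2 (esA Q23b) (esB8 Q23b) 19 [⟨1, 0, 1, 1⟩, ⟨1, 0, 1, 1⟩, ⟨1, 0, 1, 3⟩] [⟨9, 5, 16, 9⟩, ⟨12, 11, 1, 1⟩, ⟨1, 2, 107, 215⟩, ⟨98, 195, 1, 2⟩] :=
  Holds2.of_run2 c70

theorem g128 : Holds2 (esA Q23b) (esB8 Q23b) 19 [⟨1, 0, 1, 1⟩, ⟨1, 0, 1, 1⟩, ⟨1, 0, 1, 3⟩] [⟨16, 9, 7, 4⟩, ⟨12, 11, 1, 1⟩, ⟨1, 2, 107, 215⟩, ⟨98, 195, 1, 2⟩] :=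
  Holds2.of_run2 c71

theorem g129 : Holds2 (esA Q23b) (esB8 Q23b) 19 [⟨1, 0, 1, 1⟩, ⟨1, 0, 1, 1⟩, ⟨1, 0, 1, 3⟩] [⟨9, 5, 7, 4⟩, ⟨12, 11, 1, 1⟩, ⟨1, 2, 107, 215⟩, ⟨98, 195, 1, 2⟩] :=
  Holds2.split 0 16 9 g127 g128

theorem g130 : Holds2 (esA Q23b) (esB8 Q23b) 19 [⟨1, 0, 1, 1⟩, ⟨1, 0, 1, 1⟩, ⟨1, 0, 1, 3⟩] [⟨9, 5, 7, 4⟩, ⟨12, 11, 1, 1⟩, ⟨107, 215, 62, 125⟩, ⟨98, 195, 1, 2⟩] :=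
  Holds2.of_run2 c72

theorem g131 : Holds2 (esA Q23b) (esB8 Q23b) 19 [⟨1, 0, 1, 1⟩, ⟨1, 0, 1, 1⟩, ⟨1, 0, 1, 3⟩] [⟨9, 5, 7, 4⟩, ⟨12, 11, 1, 1⟩, ⟨1, 2, 62, 125⟩, ⟨98, 195, 1, 2⟩] :=
  Holds2.split 2 107 215 g129 g130

theorem g132 : Holds2 (esA Q23b) (esB8 Q23b) 19 [⟨1, 0, 1, 1⟩, ⟨1, 0, 1, 1⟩, ⟨1, 0, 1, 3⟩] [⟨13, 7, 7, 4⟩, ⟨12, 11, 1, 1⟩, ⟨1, 2, 62, 125⟩, ⟨98, 195, 1, 2⟩] :=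
  Holds2.split 0 9 5 g126 g131

theorem g133 : Holds2 (esA Q23b) (esB8 Q23b) 19 [⟨1, 0, 1, 1⟩, ⟨1, 0, 1, 1⟩, ⟨1, 0, 1, 3⟩] [⟨13, 7, 7, 4⟩, ⟨12, 11, 1, 1⟩, ⟨62, 125, 36, 73⟩, ⟨98, 195, 1, 2⟩] :=
  Holds2.of_run2 c73

theorem g134 : Holds2 (esA Q23b) (esB8 Q23b) 19 [⟨1, 0, 1, 1⟩, ⟨1, 0, 1, 1⟩, ⟨1, 0, 1, 3⟩] [⟨13, 7, 7, 4⟩, ⟨12, 11, 1, 1⟩, ⟨1, 2, 36, 73⟩, ⟨98, 195, 1, 2⟩] :=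
  Holds2.split 2 62 125 g132 g133

theorem g135 : Holds2 (esA Q23b) (esB8 Q23b) 19 [⟨1, 0, 1, 1⟩, ⟨1, 0, 1, 1⟩, ⟨1, 0, 1, 3⟩] [⟨2, 1, 7, 4⟩, ⟨12, 11, 1, 1⟩, ⟨1, 2, 36, 73⟩, ⟨98, 195, 1, 2⟩] :=
  Holds2.split 0 13 7 g125 g134

theorem g136 : Holds2 (esA Q23b) (esB8 Q23b) 19 [⟨1, 0, 1, 1⟩, ⟨1, 0, 1, 1⟩, ⟨1, 0, 1, 3⟩] [⟨7, 4, 12, 7⟩, ⟨12, 11, 1, 1⟩, ⟨1, 2, 107, 215⟩, ⟨98, 195, 1, 2⟩] :=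
  Holds2.of_run2 c74

theorem g137 : Holds2 (esA Q23b) (esB8 Q23b) 19 [⟨1, 0, 1, 1⟩, ⟨1, 0, 1, 1⟩, ⟨1, 0, 1, 3⟩] [⟨12, 7, 5, 3⟩, ⟨12, 11, 1, 1⟩, ⟨1, 2, 107, 215⟩, ⟨98, 195, 1, 2⟩] :=
  Holds2.of_run2 c75

theorem g138 : Holds2 (esA Q23b) (esB8 Q23b) 19 [⟨1, 0, 1, 1⟩, ⟨1, 0, 1, 1⟩, ⟨1, 0, 1, 3⟩] [⟨7, 4, 5, 3⟩, ⟨12, 11, 1, 1⟩, ⟨1, 2, 107, 215⟩, ⟨98, 195, 1, 2⟩] :=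
  Holds2.split 0 12 7 g136 g137

theorem g139 : Holds2 (esA Q23b) (esB8 Q23b) 19 [⟨1, 0, 1, 1⟩, ⟨1, 0, 1, 1⟩, ⟨1, 0, 1, 3⟩] [⟨5, 3, 8, 5⟩, ⟨12, 11, 21, 20⟩, ⟨1, 2, 107, 215⟩, ⟨98, 195, 1, 2⟩] :=
  Holds2.of_run2 c76

theorem g140 : Holds2 (esA Q23b) (esB8 Q23b) 19 [⟨1, 0, 1, 1⟩, ⟨1, 0, 1, 1⟩, ⟨1, 0, 1, 3⟩] [⟨5, 3, 8, 5⟩, ⟨21, 20, 1, 1⟩, ⟨1, 2, 107, 215⟩, ⟨98, 195, 168, 335⟩] :=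
  Holds2.of_run2 c77

theorem g141 : Holds2 (esA Q23b) (esB8 Q23b) 19 [⟨1, 0, 1, 1⟩, ⟨1, 0, 1, 1⟩, ⟨1, 0, 1, 3⟩] [⟨5, 3, 8, 5⟩, ⟨21, 20, 1, 1⟩, ⟨1, 2, 107, 215⟩, ⟨168, 335, 1, 2⟩] :=
  Holds2.of_run2 c78

theorem g142 : Holds2 (esA Q23b) (esB8 Q23b) 19 [⟨1, 0, 1, 1⟩, ⟨1, 0, 1, 1⟩, ⟨1, 0, 1, 3⟩] [⟨5, 3, 8, 5⟩, ⟨21, 20, 1, 1⟩, ⟨1, 2, 107, 215⟩, ⟨98, 195, 1, 2⟩] :=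
  Holds2.split 3 168 335 g140 g141

theorem g143 : Holds2 (esA Q23b) (esB8 Q23b) 19 [⟨1, 0, 1, 1⟩, ⟨1, 0, 1, 1⟩, ⟨1, 0, 1, 3⟩] [⟨5, 3, 8, 5⟩, ⟨12, 11, 1, 1⟩, ⟨1, 2, 107, 215⟩, ⟨98, 195, 1, 2⟩] :=
  Holds2.split 1 21 20 g139 g142

theorem g144 : Holds2 (esA Q23b) (esB8 Q23b) 19 [⟨1, 0, 1, 1⟩, ⟨1, 0, 1, 1⟩, ⟨1, 0, 1, 3⟩] [⟨7, 4, 8, 5⟩, ⟨12, 11, 1, 1⟩, ⟨1, 2, 107, 215⟩, ⟨98, 195, 1, 2⟩] :=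
  Holds2.split 0 5 3 g138 g143

theorem g145 : Holds2 (esA Q23b) (esB8 Q23b) 19 [⟨1, 0, 1, 1⟩, ⟨1, 0, 1, 1⟩, ⟨1, 0, 1, 3⟩] [⟨7, 4, 8, 5⟩, ⟨12, 11, 1, 1⟩, ⟨107, 215, 62, 125⟩, ⟨98, 195, 1, 2⟩] :=
  Holds2.of_run2 c79

theorem g146 : Holds2 (esA Q23b) (esB8 Q23b) 19 [⟨1, 0, 1, 1⟩, ⟨1, 0, 1, 1⟩, ⟨1, 0, 1, 3⟩] [⟨7, 4, 8, 5⟩, ⟨12, 11, 1, 1⟩, ⟨1, 2, 62, 125⟩, ⟨98, 195, 1, 2⟩] :=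
  Holds2.split 2 107 215 g144 g145

theorem g147 : Holds2 (esA Q23b) (esB8 Q23b) 19 [⟨1, 0, 1, 1⟩, ⟨1, 0, 1, 1⟩, ⟨1, 0, 1, 3⟩] [⟨7, 4, 8, 5⟩, ⟨12, 11, 1, 1⟩, ⟨62, 125, 36, 73⟩, ⟨98, 195, 1, 2⟩] :=
  Holds2.of_run2 c80

theorem g148 : Holds2 (esA Q23b) (esB8 Q23b) 19 [⟨1, 0, 1, 1⟩, ⟨1, 0, 1, 1⟩, ⟨1, 0, 1, 3⟩] [⟨7, 4, 8, 5⟩, ⟨12, 11, 1, 1⟩, ⟨1, 2, 36, 73⟩, ⟨98, 195, 1, 2⟩] :=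
  Holds2.split 2 62 125 g146 g147

theorem g149 : Holds2 (esA Q23b) (esB8 Q23b) 19 [⟨1, 0, 1, 1⟩, ⟨1, 0, 1, 1⟩, ⟨1, 0, 1, 3⟩] [⟨2, 1, 8, 5⟩, ⟨12, 11, 1, 1⟩, ⟨1, 2, 36, 73⟩, ⟨98, 195, 1, 2⟩] :=
  Holds2.split 0 7 4 g135 g148

theorem g150 : Holds2 (esA Q23b) (esB8 Q23b) 19 [⟨1, 0, 1, 1⟩, ⟨1, 0, 1, 1⟩, ⟨1, 0, 1, 3⟩] [⟨8, 5, 4, 3⟩, ⟨12, 11, 1, 1⟩, ⟨1, 2, 36, 73⟩, ⟨98, 195, 168, 335⟩] :=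
  Holds2.of_run2 c81

theorem g151 : Holds2 (esA Q23b) (esB8 Q23b) 19 [⟨1, 0, 1, 1⟩, ⟨1, 0, 1, 1⟩, ⟨1, 0, 1, 3⟩] [⟨8, 5, 4, 3⟩, ⟨12, 11, 21, 20⟩, ⟨1, 2, 316, 633⟩, ⟨168, 335, 1, 2⟩] :=
  Holds2.of_run2 c82

theorem g152 : Holds2 (esA Q23b) (esB8 Q23b) 19 [⟨1, 0, 1, 1⟩, ⟨1, 0, 1, 1⟩, ⟨1, 0, 1, 3⟩] [⟨8, 5, 13, 9⟩, ⟨21, 20, 1, 1⟩, ⟨1, 2, 316, 633⟩, ⟨168, 335, 1, 2⟩] :=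
  Holds2.of_run2 c83

theorem g153 : Holds2 (esA Q23b) (esB8 Q23b) 19 [⟨1, 0, 1, 1⟩, ⟨1, 0, 1, 1⟩, ⟨1, 0, 1, 3⟩] [⟨13, 9, 4, 3⟩, ⟨21, 20, 36, 35⟩, ⟨1, 2, 316, 633⟩, ⟨168, 335, 1, 2⟩] :=
  Holds2.of_run2 c84

theorem g154 : Holds2 (esA Q23b) (esB8 Q23b) 19 [⟨1, 0, 1, 1⟩, ⟨1, 0, 1, 1⟩, ⟨1, 0, 1, 3⟩] [⟨13, 9, 4, 3⟩, ⟨36, 35, 1, 1⟩, ⟨1, 2, 316, 633⟩, ⟨168, 335, 288, 575⟩] :=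
  Holds2.of_run2 c85

theorem g155 : Holds2 (esA Q23b) (esB8 Q23b) 19 [⟨1, 0, 1, 1⟩, ⟨1, 0, 1, 1⟩, ⟨1, 0, 1, 3⟩] [⟨13, 9, 4, 3⟩, ⟨36, 35, 62, 61⟩, ⟨1, 2, 542, 1085⟩, ⟨288, 575, 1, 2⟩] :=
  Holds2.of_run2 c86

theorem g156 : Holds2 (esA Q23b) (esB8 Q23b) 19 [⟨1, 0, 1, 1⟩, ⟨1, 0, 1, 1⟩, ⟨1, 0, 1, 3⟩] [⟨13, 9, 4, 3⟩, ⟨62, 61, 1, 1⟩, ⟨1, 2, 542, 1085⟩, ⟨288, 575, 494, 987⟩] :=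
  Holds2.of_run2 c87

theorem g157 : Holds2 (esA Q23b) (esB8 Q23b) 19 [⟨1, 0, 1, 1⟩, ⟨1, 0, 1, 1⟩, ⟨1, 0, 1, 3⟩] [⟨13, 9, 4, 3⟩, ⟨62, 61, 107, 106⟩, ⟨1, 2, 542, 1085⟩, ⟨494, 987, 1, 2⟩] :=
  Holds2.of_run2 c88

theorem g158 : Holds2 (esA Q23b) (esB8 Q23b) 19 [⟨1, 0, 1, 1⟩, ⟨1, 0, 1, 1⟩, ⟨1, 0, 1, 3⟩] [⟨13, 9, 4, 3⟩, ⟨107, 106, 1, 1⟩, ⟨1, 2, 542, 1085⟩, ⟨494, 987, 847, 1693⟩] :=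
  Holds2.of_run2 c89

theorem g159 : Holds2 (esA Q23b) (esB8 Q23b) 19 [⟨1, 0, 1, 1⟩, ⟨1, 0, 1, 1⟩, ⟨1, 0, 1, 3⟩] [⟨13, 9, 4, 3⟩, ⟨107, 106, 1, 1⟩, ⟨1, 2, 542, 1085⟩, ⟨847, 1693, 1452, 2903⟩] :=
  Holds2.of_run2 c90

theorem g160 : Holds2 (esA Q23b) (esB8 Q23b) 19 [⟨1, 0, 1, 1⟩, ⟨1, 0, 1, 1⟩, ⟨1, 0, 1, 3⟩] [⟨13, 9, 4, 3⟩, ⟨107, 106, 184, 183⟩, ⟨1, 2, 542, 1085⟩, ⟨1452, 2903, 1, 2⟩] :=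
  Holds2.of_run2 c91

theorem g161 : Holds2 (esA Q23b) (esB8 Q23b) 19 [⟨1, 0, 1, 1⟩, ⟨1, 0, 1, 1⟩, ⟨1, 0, 1, 3⟩] [⟨13, 9, 4, 3⟩, ⟨184, 183, 1, 1⟩, ⟨1, 2, 542, 1085⟩, ⟨1452, 2903, 1, 2⟩] :=
  Holds2.of_run2 c92

theorem g162 : Holds2 (esA Q23b) (esB8 Q23b) 19 [⟨1, 0, 1, 1⟩, ⟨1, 0, 1, 1⟩, ⟨1, 0, 1, 3⟩] [⟨13, 9, 4, 3⟩, ⟨107, 106, 1, 1⟩, ⟨1, 2, 542, 1085⟩, ⟨1452, 2903, 1, 2⟩] :=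
  Holds2.split 1 184 183 g160 g161

theorem g163 : Holds2 (esA Q23b) (esB8 Q23b) 19 [⟨1, 0, 1, 1⟩, ⟨1, 0, 1, 1⟩, ⟨1, 0, 1, 3⟩] [⟨13, 9, 4, 3⟩, ⟨107, 106, 1, 1⟩, ⟨1, 2, 542, 1085⟩, ⟨847, 1693, 1, 2⟩] :=
  Holds2.split 3 1452 2903 g159 g162

theorem g164 : Holds2 (esA Q23b) (esB8 Q23b) 19 [⟨1, 0, 1, 1⟩, ⟨1, 0, 1, 1⟩, ⟨1, 0, 1, 3⟩] [⟨13, 9, 4, 3⟩, ⟨107, 106, 1, 1⟩, ⟨1, 2, 542, 1085⟩, ⟨494, 987, 1, 2⟩] :=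
  Holds2.split 3 847 1693 g158 g163

theorem g165 : Holds2 (esA Q23b) (esB8 Q23b) 19 [⟨1, 0, 1, 1⟩, ⟨1, 0, 1, 1⟩, ⟨1, 0, 1, 3⟩] [⟨13, 9, 4, 3⟩, ⟨62, 61, 1, 1⟩, ⟨1, 2, 542, 1085⟩, ⟨494, 987, 1, 2⟩] :=
  Holds2.split 1 107 106 g157 g164

theorem g166 : Holds2 (esA Q23b) (esB8 Q23b) 19 [⟨1, 0, 1, 1⟩, ⟨1, 0, 1, 1⟩, ⟨1, 0, 1, 3⟩] [⟨13, 9, 4, 3⟩, ⟨62, 61, 1, 1⟩, ⟨1, 2, 542, 1085⟩, ⟨288, 575, 1, 2⟩] :=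
  Holds2.split 3 494 987 g156 g165

theorem g167 : Holds2 (esA Q23b) (esB8 Q23b) 19 [⟨1, 0, 1, 1⟩, ⟨1, 0, 1, 1⟩, ⟨1, 0, 1, 3⟩] [⟨13, 9, 4, 3⟩, ⟨36, 35, 1, 1⟩, ⟨1, 2, 542, 1085⟩, ⟨288, 575, 1, 2⟩] :=
  Holds2.split 1 62 61 g155 g166

theorem g168 : Holds2 (esA Q23b) (esB8 Q23b) 19 [⟨1, 0, 1, 1⟩, ⟨1, 0, 1, 1⟩, ⟨1, 0, 1, 3⟩] [⟨13, 9, 4, 3⟩, ⟨36, 35, 1, 1⟩, ⟨542, 1085, 316, 633⟩, ⟨288, 575, 1, 2⟩] :=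
  Holds2.of_run2 c93

theorem g169 : Holds2 (esA Q23b) (esB8 Q23b) 19 [⟨1, 0, 1, 1⟩, ⟨1, 0, 1, 1⟩, ⟨1, 0, 1, 3⟩] [⟨13, 9, 4, 3⟩, ⟨36, 35, 1, 1⟩, ⟨1, 2, 316, 633⟩, ⟨288, 575, 1, 2⟩] :=
  Holds2.split 2 542 1085 g167 g168

theorem g170 : Holds2 (esA Q23b) (esB8 Q23b) 19 [⟨1, 0, 1, 1⟩, ⟨1, 0, 1, 1⟩, ⟨1, 0, 1, 3⟩] [⟨13, 9, 4, 3⟩, ⟨36, 35, 1, 1⟩, ⟨1, 2, 316, 633⟩, ⟨168, 335, 1, 2⟩] :=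
  Holds2.split 3 288 575 g154 g169

theorem g171 : Holds2 (esA Q23b) (esB8 Q23b) 19 [⟨1, 0, 1, 1⟩, ⟨1, 0, 1, 1⟩, ⟨1, 0, 1, 3⟩] [⟨13, 9, 4, 3⟩, ⟨21, 20, 1, 1⟩, ⟨1, 2, 316, 633⟩, ⟨168, 335, 1, 2⟩] :=
  Holds2.split 1 36 35 g153 g170

theorem g172 : Holds2 (esA Q23b) (esB8 Q23b) 19 [⟨1, 0, 1, 1⟩, ⟨1, 0, 1, 1⟩, ⟨1, 0, 1, 3⟩] [⟨8, 5, 4, 3⟩, ⟨21, 20, 1, 1⟩, ⟨1, 2, 316, 633⟩, ⟨168, 335, 1, 2⟩] :=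
  Holds2.split 0 13 9 g152 g171

theorem g173 : Holds2 (esA Q23b) (esB8 Q23b) 19 [⟨1, 0, 1, 1⟩, ⟨1, 0, 1, 1⟩, ⟨1, 0, 1, 3⟩] [⟨8, 5, 4, 3⟩, ⟨12, 11, 1, 1⟩, ⟨1, 2, 316, 633⟩, ⟨168, 335, 1, 2⟩] :=
  Holds2.split 1 21 20 g151 g172

theorem g174 : Holds2 (esA Q23b) (esB8 Q23b) 19 [⟨1, 0, 1, 1⟩, ⟨1, 0, 1, 1⟩, ⟨1, 0, 1, 3⟩] [⟨8, 5, 4, 3⟩, ⟨12, 11, 1, 1⟩, ⟨316, 633, 184, 369⟩, ⟨168, 335, 1, 2⟩] :=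
  Holds2.of_run2 c94

theorem g175 : Holds2 (esA Q23b) (esB8 Q23b) 19 [⟨1, 0, 1, 1⟩, ⟨1, 0, 1, 1⟩, ⟨1, 0, 1, 3⟩] [⟨8, 5, 4, 3⟩, ⟨12, 11, 1, 1⟩, ⟨1, 2, 184, 369⟩, ⟨168, 335, 1, 2⟩] :=
  Holds2.split 2 316 633 g173 g174

theorem g176 : Holds2 (esA Q23b) (esB8 Q23b) 19 [⟨1, 0, 1, 1⟩, ⟨1, 0, 1, 1⟩, ⟨1, 0, 1, 3⟩] [⟨8, 5, 4, 3⟩, ⟨12, 11, 1, 1⟩, ⟨184, 369, 107, 215⟩, ⟨168, 335, 1, 2⟩] :=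
  Holds2.of_run2 c95

theorem g177 : Holds2 (esA Q23b) (esB8 Q23b) 19 [⟨1, 0, 1, 1⟩, ⟨1, 0, 1, 1⟩, ⟨1, 0, 1, 3⟩] [⟨8, 5, 4, 3⟩, ⟨12, 11, 1, 1⟩, ⟨1, 2, 107, 215⟩, ⟨168, 335, 1, 2⟩] :=
  Holds2.split 2 184 369 g175 g176

theorem g178 : Holds2 (esA Q23b) (esB8 Q23b) 19 [⟨1, 0, 1, 1⟩, ⟨1, 0, 1, 1⟩, ⟨1, 0, 1, 3⟩] [⟨8, 5, 4, 3⟩, ⟨12, 11, 1, 1⟩, ⟨107, 215, 62, 125⟩, ⟨168, 335, 1, 2⟩] :=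
  Holds2.of_run2 c96

theorem g179 : Holds2 (esA Q23b) (esB8 Q23b) 19 [⟨1, 0, 1, 1⟩, ⟨1, 0, 1, 1⟩, ⟨1, 0, 1, 3⟩] [⟨8, 5, 4, 3⟩, ⟨12, 11, 1, 1⟩, ⟨1, 2, 62, 125⟩, ⟨168, 335, 1, 2⟩] :=
  Holds2.split 2 107 215 g177 g178

theorem g180 : Holds2 (esA Q23b) (esB8 Q23b) 19 [⟨1, 0, 1, 1⟩, ⟨1, 0, 1, 1⟩, ⟨1, 0, 1, 3⟩] [⟨8, 5, 4, 3⟩, ⟨12, 11, 1, 1⟩, ⟨62, 125, 36, 73⟩, ⟨168, 335, 1, 2⟩] :=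
  Holds2.of_run2 c97

theorem g181 : Holds2 (esA Q23b) (esB8 Q23b) 19 [⟨1, 0, 1, 1⟩, ⟨1, 0, 1, 1⟩, ⟨1, 0, 1, 3⟩] [⟨8, 5, 4, 3⟩, ⟨12, 11, 1, 1⟩, ⟨1, 2, 36, 73⟩, ⟨168, 335, 1, 2⟩] :=
  Holds2.split 2 62 125 g179 g180

theorem g182 : Holds2 (esA Q23b) (esB8 Q23b) 19 [⟨1, 0, 1, 1⟩, ⟨1, 0, 1, 1⟩, ⟨1, 0, 1, 3⟩] [⟨8, 5, 4, 3⟩, ⟨12, 11, 1, 1⟩, ⟨1, 2, 36, 73⟩, ⟨98, 195, 1, 2⟩] :=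
  Holds2.split 3 168 335 g150 g181

theorem g183 : Holds2 (esA Q23b) (esB8 Q23b) 19 [⟨1, 0, 1, 1⟩, ⟨1, 0, 1, 1⟩, ⟨1, 0, 1, 3⟩] [⟨2, 1, 4, 3⟩, ⟨12, 11, 1, 1⟩, ⟨1, 2, 36, 73⟩, ⟨98, 195, 1, 2⟩] :=
  Holds2.split 0 8 5 g149 g182

theorem g184 : Holds2 (esA Q23b) (esB8 Q23b) 19 [⟨1, 0, 1, 1⟩, ⟨1, 0, 1, 1⟩, ⟨1, 0, 1, 3⟩] [⟨2, 1, 4, 3⟩, ⟨12, 11, 1, 1⟩, ⟨36, 73, 21, 43⟩, ⟨98, 195, 1, 2⟩] :=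
  Holds2.of_run2 c98

theorem g185 : Holds2 (esA Q23b) (esB8 Q23b) 19 [⟨1, 0, 1, 1⟩, ⟨1, 0, 1, 1⟩, ⟨1, 0, 1, 3⟩] [⟨2, 1, 4, 3⟩, ⟨12, 11, 1, 1⟩, ⟨1, 2, 21, 43⟩, ⟨98, 195, 1, 2⟩] :=
  Holds2.split 2 36 73 g183 g184

theorem g186 : Holds2 (esA Q23b) (esB8 Q23b) 19 [⟨1, 0, 1, 1⟩, ⟨1, 0, 1, 1⟩, ⟨1, 0, 1, 3⟩] [⟨2, 1, 4, 3⟩, ⟨12, 11, 1, 1⟩, ⟨1, 2, 21, 43⟩, ⟨57, 113, 1, 2⟩] :=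
  Holds2.split 3 98 195 g106 g185

theorem g187 : Holds2 (esA Q23b) (esB8 Q23b) 19 [⟨1, 0, 1, 1⟩, ⟨1, 0, 1, 1⟩, ⟨1, 0, 1, 3⟩] [⟨2, 1, 4, 3⟩, ⟨12, 11, 1, 1⟩, ⟨21, 43, 12, 25⟩, ⟨57, 113, 1, 2⟩] :=
  Holds2.of_run2 c99

theorem g188 : Holds2 (esA Q23b) (esB8 Q23b) 19 [⟨1, 0, 1, 1⟩, ⟨1, 0, 1, 1⟩, ⟨1, 0, 1, 3⟩] [⟨2, 1, 4, 3⟩, ⟨12, 11, 1, 1⟩, ⟨1, 2, 12, 25⟩, ⟨57, 113, 1, 2⟩] :=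
  Holds2.split 2 21 43 g186 g187

theorem g189 : Holds2 (esA Q23b) (esB8 Q23b) 19 [⟨1, 0, 1, 1⟩, ⟨1, 0, 1, 1⟩, ⟨1, 0, 1, 3⟩] [⟨2, 1, 4, 3⟩, ⟨12, 11, 1, 1⟩, ⟨1, 2, 12, 25⟩, ⟨33, 65, 1, 2⟩] :=
  Holds2.split 3 57 113 g105 g188

theorem g190 : Holds2 (esA Q23b) (esB8 Q23b) 19 [⟨1, 0, 1, 1⟩, ⟨1, 0, 1, 1⟩, ⟨1, 0, 1, 3⟩] [⟨2, 1, 4, 3⟩, ⟨12, 11, 1, 1⟩, ⟨1, 2, 12, 25⟩, ⟨19, 37, 1, 2⟩] :=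
  Holds2.split 3 33 65 g104 g189

theorem g191 : Holds2 (esA Q23b) (esB8 Q23b) 19 [⟨1, 0, 1, 1⟩, ⟨1, 0, 1, 1⟩, ⟨1, 0, 1, 3⟩] [⟨2, 1, 4, 3⟩, ⟨7, 6, 1, 1⟩, ⟨1, 2, 12, 25⟩, ⟨19, 37, 1, 2⟩] :=
  Holds2.split 1 12 11 g103 g190

theorem g192 : Holds2 (esA Q23b) (esB8 Q23b) 19 [⟨1, 0, 1, 1⟩, ⟨1, 0, 1, 1⟩, ⟨1, 0, 1, 3⟩] [⟨2, 1, 4, 3⟩, ⟨7, 6, 1, 1⟩, ⟨12, 25, 7, 15⟩, ⟨19, 37, 1, 2⟩] :=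
  Holds2.of_run2 c100

theorem g193 : Holds2 (esA Q23b) (esB8 Q23b) 19 [⟨1, 0, 1, 1⟩, ⟨1, 0, 1, 1⟩, ⟨1, 0, 1, 3⟩] [⟨2, 1, 4, 3⟩, ⟨7, 6, 1, 1⟩, ⟨1, 2, 7, 15⟩, ⟨19, 37, 1, 2⟩] :=
  Holds2.split 2 12 25 g191 g192

theorem g194 : Holds2 (esA Q23b) (esB8 Q23b) 19 [⟨1, 0, 1, 1⟩, ⟨1, 0, 1, 1⟩, ⟨1, 0, 1, 3⟩] [⟨2, 1, 4, 3⟩, ⟨7, 6, 1, 1⟩, ⟨1, 2, 7, 15⟩, ⟨11, 21, 1, 2⟩] :=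
  Holds2.split 3 19 37 g102 g193

theorem g195 : Holds2 (esA Q23b) (esB8 Q23b) 19 [⟨1, 0, 1, 1⟩, ⟨1, 0, 1, 1⟩, ⟨1, 0, 1, 3⟩] [⟨2, 1, 4, 3⟩, ⟨7, 6, 1, 1⟩, ⟨7, 15, 4, 9⟩, ⟨11, 21, 1, 2⟩] :=
  Holds2.of_run2 c101

theorem g196 : Holds2 (esA Q23b) (esB8 Q23b) 19 [⟨1, 0, 1, 1⟩, ⟨1, 0, 1, 1⟩, ⟨1, 0, 1, 3⟩] [⟨2, 1, 4, 3⟩, ⟨7, 6, 1, 1⟩, ⟨1, 2, 4, 9⟩, ⟨11, 21, 1, 2⟩] :=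
  Holds2.split 2 7 15 g194 g195

theorem g197 : Holds2 (esA Q23b) (esB8 Q23b) 19 [⟨1, 0, 1, 1⟩, ⟨1, 0, 1, 1⟩, ⟨1, 0, 1, 3⟩] [⟨2, 1, 4, 3⟩, ⟨4, 3, 1, 1⟩, ⟨1, 2, 4, 9⟩, ⟨11, 21, 1, 2⟩] :=
  Holds2.split 1 7 6 g101 g196

theorem g198 : Holds2 (esA Q23b) (esB8 Q23b) 19 [⟨1, 0, 1, 1⟩, ⟨1, 0, 1, 1⟩, ⟨1, 0, 1, 3⟩] [⟨2, 1, 4, 3⟩, ⟨4, 3, 1, 1⟩, ⟨1, 2, 4, 9⟩, ⟨6, 11, 1, 2⟩] :=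
  Holds2.split 3 11 21 g100 g197

theorem g199 : Holds2 (esA Q23b) (esB8 Q23b) 19 [⟨1, 0, 1, 1⟩, ⟨1, 0, 1, 1⟩, ⟨1, 0, 1, 3⟩] [⟨2, 1, 4, 3⟩, ⟨4, 3, 1, 1⟩, ⟨4, 9, 2, 5⟩, ⟨6, 11, 1, 2⟩] :=
  Holds2.of_run2 c102

theorem g200 : Holds2 (esA Q23b) (esB8 Q23b) 19 [⟨1, 0, 1, 1⟩, ⟨1, 0, 1, 1⟩, ⟨1, 0, 1, 3⟩] [⟨2, 1, 4, 3⟩, ⟨4, 3, 1, 1⟩, ⟨1, 2, 2, 5⟩, ⟨6, 11, 1, 2⟩] :=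
  Holds2.split 2 4 9 g198 g199

theorem g201 : Holds2 (esA Q23b) (esB8 Q23b) 19 [⟨1, 0, 1, 1⟩, ⟨1, 0, 1, 1⟩, ⟨1, 0, 1, 3⟩] [⟨2, 1, 4, 3⟩, ⟨2, 1, 1, 1⟩, ⟨1, 2, 2, 5⟩, ⟨6, 11, 1, 2⟩] :=
  Holds2.split 1 4 3 g99 g200

theorem g202 : Holds2 (esA Q23b) (esB8 Q23b) 19 [⟨1, 0, 1, 1⟩, ⟨1, 0, 1, 1⟩, ⟨1, 0, 1, 3⟩] [⟨2, 1, 4, 3⟩, ⟨2, 1, 1, 1⟩, ⟨1, 2, 2, 5⟩, ⟨7, 12, 1, 2⟩] :=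
  Holds2.split 3 6 11 g98 g201

theorem g203 : Holds2 (esA Q23b) (esB8 Q23b) 19 [⟨1, 0, 1, 1⟩, ⟨1, 0, 1, 1⟩, ⟨1, 0, 1, 3⟩] [⟨2, 1, 4, 3⟩, ⟨2, 1, 1, 1⟩, ⟨2, 5, 1, 3⟩, ⟨7, 12, 1, 2⟩] :=
  Holds2.of_run2 c103

theorem g204 : Holds2 (esA Q23b) (esB8 Q23b) 19 [⟨1, 0, 1, 1⟩, ⟨1, 0, 1, 1⟩, ⟨1, 0, 1, 3⟩] [⟨2, 1, 4, 3⟩, ⟨2, 1, 1, 1⟩, ⟨1, 2, 1, 3⟩, ⟨7, 12, 1, 2⟩] :=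
  Holds2.split 2 2 5 g202 g203

theorem g205 : Holds2 (esA Q23b) (esB8 Q23b) 19 [⟨1, 0, 1, 1⟩, ⟨1, 0, 1, 1⟩, ⟨1, 0, 1, 3⟩] [⟨4, 3, 7, 6⟩, ⟨2, 1, 1, 1⟩, ⟨1, 2, 1, 3⟩, ⟨7, 12, 1, 2⟩] :=
  Holds2.of_run2 c104

theorem g206 : Holds2 (esA Q23b) (esB8 Q23b) 19 [⟨1, 0, 1, 1⟩, ⟨1, 0, 1, 1⟩, ⟨1, 0, 1, 3⟩] [⟨7, 6, 1, 1⟩, ⟨2, 1, 1, 1⟩, ⟨1, 2, 1, 3⟩, ⟨7, 12, 1, 2⟩] :=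
  Holds2.of_run2 c105

theorem g207 : Holds2 (esA Q23b) (esB8 Q23b) 19 [⟨1, 0, 1, 1⟩, ⟨1, 0, 1, 1⟩, ⟨1, 0, 1, 3⟩] [⟨4, 3, 1, 1⟩, ⟨2, 1, 1, 1⟩, ⟨1, 2, 1, 3⟩, ⟨7, 12, 1, 2⟩] :=
  Holds2.split 0 7 6 g205 g206

theorem g208 : Holds2 (esA Q23b) (esB8 Q23b) 19 [⟨1, 0, 1, 1⟩, ⟨1, 0, 1, 1⟩, ⟨1, 0, 1, 3⟩] [⟨2, 1, 1, 1⟩, ⟨2, 1, 1, 1⟩, ⟨1, 2, 1, 3⟩, ⟨7, 12, 1, 2⟩] :=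
  Holds2.split 0 4 3 g204 g207

theorem g209 : Holds2 (esA Q23b) (esB8 Q23b) 19 [⟨1, 0, 1, 1⟩, ⟨1, 0, 1, 1⟩, ⟨1, 0, 1, 3⟩] [⟨2, 1, 1, 1⟩, ⟨1, 0, 1, 1⟩, ⟨1, 2, 1, 3⟩, ⟨7, 12, 1, 2⟩] :=
  Holds2.split 1 2 1 g97 g208

theorem g210 : Holds2 (esA Q23b) (esB8 Q23b) 19 [⟨1, 0, 1, 1⟩, ⟨1, 0, 1, 1⟩, ⟨1, 0, 1, 3⟩] [⟨1, 0, 1, 1⟩, ⟨1, 0, 1, 1⟩, ⟨1, 2, 1, 3⟩, ⟨7, 12, 1, 2⟩] :=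
  Holds2.split 0 2 1 g96 g209

end Crest.Agent.R310.Cert.Q23bCert

theorem Crest.Agent.R310.Cert.holdsQ23b : Holds2 (esA Q23b) (esB8 Q23b) 19 [⟨1, 0, 1, 1⟩, ⟨1, 0, 1, 1⟩, ⟨1, 0, 1, 3⟩] [⟨1, 0, 1, 1⟩, ⟨1, 0, 1, 1⟩, ⟨1, 2, 1, 3⟩, ⟨7, 12, 1, 2⟩] :=
  Crest.Agent.R310.Cert.Q23bCert.g210
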