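import Crest.Agent.Lib.PolyBB.Basic
import Crest.Agent.R310.N.Q24C0
import Crest.Agent.R310.N.Q24C1

set_option autoImplicit false
set_option maxRecDepth 100000
set_option Elab.async false

open Crest.Agent.Lib.PolyBB

namespace Crest.Agent.R310.Cert.Q24Cert

theorem g0 : Holds2 (esA Q24) (esB8 Q24) 19 [⟨1, 0, 1, 1⟩, ⟨1, 0, 1, 1⟩, ⟨1, 0, 1, 3⟩] [⟨1, 0, 4, 1⟩, ⟨1, 0, 2, 1⟩, ⟨1, 2, 2, 5⟩, ⟨1, 0, 1, 1⟩] :=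
  Holds2.of_run2 c0

theorem g1 : Holds2 (esA Q24) (esB8 Q24) 19 [⟨1, 0, 1, 1⟩, ⟨1, 0, 1, 1⟩, ⟨1, 0, 1, 3⟩] [⟨1, 0, 7, 1⟩, ⟨1, 0, 2, 1⟩, ⟨1, 2, 2, 5⟩, ⟨1, 1, 7, 12⟩] :=
  Holds2.of_run2 c1

theorem g2 : Holds2 (esA Q24) (esB8 Q24) 19 [⟨1, 0, 1, 1⟩, ⟨1, 0, 1, 1⟩, ⟨1, 0, 1, 3⟩] [⟨7, 1, 4, 1⟩, ⟨1, 0, 2, 1⟩, ⟨1, 2, 2, 5⟩, ⟨1, 1, 7, 12⟩] :=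
  Holds2.of_run2 c2

theorem g3 : Holds2 (esA Q24) (esB8 Q24) 19 [⟨1, 0, 1, 1⟩, ⟨1, 0, 1, 1⟩, ⟨1, 0, 1, 3⟩] [⟨1, 0, 4, 1⟩, ⟨1, 0, 2, 1⟩, ⟨1, 2, 2, 5⟩, ⟨1, 1, 7, 12⟩] :=
  Holds2.split 0 7 1 g1 g2

theorem g4 : Holds2 (esA Q24) (esB8 Q24) 19 [⟨1, 0, 1, 1⟩, ⟨1, 0, 1, 1⟩, ⟨1, 0, 1, 3⟩] [⟨1, 0, 4, 1⟩, ⟨1, 0, 2, 1⟩, ⟨1, 2, 2, 5⟩, ⟨1, 0, 7, 12⟩] :=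
  Holds2.split 3 1 1 g0 g3

theorem g5 : Holds2 (esA Q24) (esB8 Q24) 19 [⟨1, 0, 1, 1⟩, ⟨1, 0, 1, 1⟩, ⟨1, 0, 1, 3⟩] [⟨4, 1, 2, 1⟩, ⟨1, 0, 2, 1⟩, ⟨1, 2, 2, 5⟩, ⟨1, 0, 7, 12⟩] :=
  Holds2.of_run2 c3

theorem g6 : Holds2 (esA Q24) (esB8 Q24) 19 [⟨1, 0, 1, 1⟩, ⟨1, 0, 1, 1⟩, ⟨1, 0, 1, 3⟩] [⟨1, 0, 2, 1⟩, ⟨1, 0, 2, 1⟩, ⟨1, 2, 2, 5⟩, ⟨1, 0, 7, 12⟩] :=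
  Holds2.split 0 4 1 g4 g5

theorem g7 : Holds2 (esA Q24) (esB8 Q24) 19 [⟨1, 0, 1, 1⟩, ⟨1, 0, 1, 1⟩, ⟨1, 0, 1, 3⟩] [⟨1, 0, 2, 1⟩, ⟨1, 0, 2, 1⟩, ⟨2, 5, 1, 3⟩, ⟨1, 0, 7, 12⟩] :=
  Holds2.of_run2 c4

theorem g8 : Holds2 (esA Q24) (esB8 Q24) 19 [⟨1, 0, 1, 1⟩, ⟨1, 0, 1, 1⟩, ⟨1, 0, 1, 3⟩] [⟨1, 0, 2, 1⟩, ⟨1, 0, 2, 1⟩, ⟨1, 2, 1, 3⟩, ⟨1, 0, 7, 12⟩] :=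
  Holds2.split 2 2 5 g6 g7

theorem g9 : Holds2 (esA Q24) (esB8 Q24) 19 [⟨1, 0, 1, 1⟩, ⟨1, 0, 1, 1⟩, ⟨1, 0, 1, 3⟩] [⟨1, 0, 2, 1⟩, ⟨2, 1, 1, 1⟩, ⟨1, 2, 1, 3⟩, ⟨1, 0, 7, 12⟩] :=
  Holds2.of_run2 c5

theorem g10 : Holds2 (esA Q24) (esB8 Q24) 19 [⟨1, 0, 1, 1⟩, ⟨1, 0, 1, 1⟩, ⟨1, 0, 1, 3⟩] [⟨1, 0, 2, 1⟩, ⟨1, 0, 1, 1⟩, ⟨1, 2, 1, 3⟩, ⟨1, 0, 7, 12⟩] :=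
  Holds2.split 1 2 1 g8 g9

theorem g11 : Holds2 (esA Q24) (esB8 Q24) 19 [⟨1, 0, 1, 1⟩, ⟨1, 0, 1, 1⟩, ⟨1, 0, 1, 3⟩] [⟨2, 1, 1, 1⟩, ⟨1, 0, 2, 1⟩, ⟨1, 2, 1, 3⟩, ⟨1, 0, 7, 12⟩] :=
  Holds2.of_run2 c6

theorem g12 : Holds2 (esA Q24) (esB8 Q24) 19 [⟨1, 0, 1, 1⟩, ⟨1, 0, 1, 1⟩, ⟨1, 0, 1, 3⟩] [⟨2, 1, 1, 1⟩, ⟨2, 1, 4, 3⟩, ⟨1, 2, 1, 3⟩, ⟨1, 0, 7, 12⟩] :=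
  Holds2.of_run2 c7

theorem g13 : Holds2 (esA Q24) (esB8 Q24) 19 [⟨1, 0, 1, 1⟩, ⟨1, 0, 1, 1⟩, ⟨1, 0, 1, 3⟩] [⟨2, 1, 1, 1⟩, ⟨4, 3, 7, 6⟩, ⟨1, 2, 2, 5⟩, ⟨1, 0, 7, 12⟩] :=
  Holds2.of_run2 c8

theorem g14 : Holds2 (esA Q24) (esB8 Q24) 19 [⟨1, 0, 1, 1⟩, ⟨1, 0, 1, 1⟩, ⟨1, 0, 1, 3⟩] [⟨2, 1, 1, 1⟩, ⟨7, 6, 1, 1⟩, ⟨1, 2, 2, 5⟩, ⟨1, 0, 1, 1⟩] :=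
  Holds2.of_run2 c9

theorem g15 : Holds2 (esA Q24) (esB8 Q24) 19 [⟨1, 0, 1, 1⟩, ⟨1, 0, 1, 1⟩, ⟨1, 0, 1, 3⟩] [⟨2, 1, 1, 1⟩, ⟨7, 6, 1, 1⟩, ⟨1, 2, 2, 5⟩, ⟨1, 1, 7, 12⟩] :=
  Holds2.of_run2 c10

theorem g16 : Holds2 (esA Q24) (esB8 Q24) 19 [⟨1, 0, 1, 1⟩, ⟨1, 0, 1, 1⟩, ⟨1, 0, 1, 3⟩] [⟨2, 1, 1, 1⟩, ⟨7, 6, 1, 1⟩, ⟨1, 2, 2, 5⟩, ⟨1, 0, 7, 12⟩] :=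
  Holds2.split 3 1 1 g14 g15

theorem g17 : Holds2 (esA Q24) (esB8 Q24) 19 [⟨1, 0, 1, 1⟩, ⟨1, 0, 1, 1⟩, ⟨1, 0, 1, 3⟩] [⟨2, 1, 1, 1⟩, ⟨4, 3, 1, 1⟩, ⟨1, 2, 2, 5⟩, ⟨1, 0, 7, 12⟩] :=
  Holds2.split 1 7 6 g13 g16

theorem g18 : Holds2 (esA Q24) (esB8 Q24) 19 [⟨1, 0, 1, 1⟩, ⟨1, 0, 1, 1⟩, ⟨1, 0, 1, 3⟩] [⟨2, 1, 1, 1⟩, ⟨4, 3, 1, 1⟩, ⟨2, 5, 1, 3⟩, ⟨1, 0, 7, 12⟩] :=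
  Holds2.of_run2 c11

theorem g19 : Holds2 (esA Q24) (esB8 Q24) 19 [⟨1, 0, 1, 1⟩, ⟨1, 0, 1, 1⟩, ⟨1, 0, 1, 3⟩] [⟨2, 1, 1, 1⟩, ⟨4, 3, 1, 1⟩, ⟨1, 2, 1, 3⟩, ⟨1, 0, 7, 12⟩] :=
  Holds2.split 2 2 5 g17 g18

theorem g20 : Holds2 (esA Q24) (esB8 Q24) 19 [⟨1, 0, 1, 1⟩, ⟨1, 0, 1, 1⟩, ⟨1, 0, 1, 3⟩] [⟨2, 1, 1, 1⟩, ⟨2, 1, 1, 1⟩, ⟨1, 2, 1, 3⟩, ⟨1, 0, 7, 12⟩] :=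
  Holds2.split 1 4 3 g12 g19

theorem g21 : Holds2 (esA Q24) (esB8 Q24) 19 [⟨1, 0, 1, 1⟩, ⟨1, 0, 1, 1⟩, ⟨1, 0, 1, 3⟩] [⟨2, 1, 1, 1⟩, ⟨1, 0, 1, 1⟩, ⟨1, 2, 1, 3⟩, ⟨1, 0, 7, 12⟩] :=
  Holds2.split 1 2 1 g11 g20

theorem g22 : Holds2 (esA Q24) (esB8 Q24) 19 [⟨1, 0, 1, 1⟩, ⟨1, 0, 1, 1⟩, ⟨1, 0, 1, 3⟩] [⟨1, 0, 1, 1⟩, ⟨1, 0, 1, 1⟩, ⟨1, 2, 1, 3⟩, ⟨1, 0, 7, 12⟩] :=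
  Holds2.split 0 2 1 g10 g21

end Crest.Agent.R310.Cert.Q24Cert

theorem Crest.Agent.R310.Cert.holdsQ24 : Holds2 (esA Q24) (esB8 Q24) 19 [⟨1, 0, 1, 1⟩, ⟨1, 0, 1, 1⟩, ⟨1, 0, 1, 3⟩] [⟨1, 0, 1, 1⟩, ⟨1, 0, 1, 1⟩, ⟨1, 2, 1, 3⟩, ⟨1, 0, 7, 12⟩] :=
  Crest.Agent.R310.Cert.Q24Cert.g22
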