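import Crest.Agent.Lib.PolyBB.Basic
import Crest.Agent.R310.N.Q34C0
import Crest.Agent.R310.N.Q34C1

set_option autoImplicit false
set_option maxRecDepth 100000
set_option Elab.async false

open Crest.Agent.Lib.PolyBB

namespace Crest.Agent.R310.Cert.Q34Cert

theorem g0 : Holds2 (esA Q34) (esB8 Q34) 19 [⟨1, 0, 1, 1⟩, ⟨1, 0, 1, 1⟩, ⟨1, 0, 1, 3⟩] [⟨1, 0, 2, 1⟩, ⟨1, 0, 2, 1⟩, ⟨7, 12, 6, 11⟩, ⟨1, 0, 1, 1⟩] :=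
  Holds2.of_run2 c0

theorem g1 : Holds2 (esA Q34) (esB8 Q34) 19 [⟨1, 0, 1, 1⟩, ⟨1, 0, 1, 1⟩, ⟨1, 0, 1, 3⟩] [⟨1, 0, 2, 1⟩, ⟨1, 0, 4, 1⟩, ⟨7, 12, 18, 31⟩, ⟨1, 1, 7, 12⟩] :=
  Holds2.of_run2 c1

theorem g2 : Holds2 (esA Q34) (esB8 Q34) 19 [⟨1, 0, 1, 1⟩, ⟨1, 0, 1, 1⟩, ⟨1, 0, 1, 3⟩] [⟨1, 0, 2, 1⟩, ⟨1, 0, 4, 1⟩, ⟨18, 31, 40, 69⟩, ⟨1, 1, 7, 12⟩] :=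
  Holds2.of_run2 c2

theorem g3 : Holds2 (esA Q34) (esB8 Q34) 19 [⟨1, 0, 1, 1⟩, ⟨1, 0, 1, 1⟩, ⟨1, 0, 1, 3⟩] [⟨1, 0, 2, 1⟩, ⟨1, 0, 4, 1⟩, ⟨40, 69, 11, 19⟩, ⟨1, 1, 7, 12⟩] :=
  Holds2.of_run2 c3

theorem g4 : Holds2 (esA Q34) (esB8 Q34) 19 [⟨1, 0, 1, 1⟩, ⟨1, 0, 1, 1⟩, ⟨1, 0, 1, 3⟩] [⟨1, 0, 2, 1⟩, ⟨1, 0, 4, 1⟩, ⟨18, 31, 11, 19⟩, ⟨1, 1, 7, 12⟩] :=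
  Holds2.split 2 40 69 g2 g3

theorem g5 : Holds2 (esA Q34) (esB8 Q34) 19 [⟨1, 0, 1, 1⟩, ⟨1, 0, 1, 1⟩, ⟨1, 0, 1, 3⟩] [⟨1, 0, 2, 1⟩, ⟨1, 0, 4, 1⟩, ⟨11, 19, 15, 26⟩, ⟨1, 1, 7, 12⟩] :=
  Holds2.of_run2 c4

theorem g6 : Holds2 (esA Q34) (esB8 Q34) 19 [⟨1, 0, 1, 1⟩, ⟨1, 0, 1, 1⟩, ⟨1, 0, 1, 3⟩] [⟨1, 0, 2, 1⟩, ⟨1, 0, 4, 1⟩, ⟨18, 31, 15, 26⟩, ⟨1, 1, 7, 12⟩] :=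
  Holds2.split 2 11 19 g4 g5

theorem g7 : Holds2 (esA Q34) (esB8 Q34) 19 [⟨1, 0, 1, 1⟩, ⟨1, 0, 1, 1⟩, ⟨1, 0, 1, 3⟩] [⟨1, 0, 2, 1⟩, ⟨1, 0, 4, 1⟩, ⟨7, 12, 15, 26⟩, ⟨1, 1, 7, 12⟩] :=
  Holds2.split 2 18 31 g1 g6

theorem g8 : Holds2 (esA Q34) (esB8 Q34) 19 [⟨1, 0, 1, 1⟩, ⟨1, 0, 1, 1⟩, ⟨1, 0, 1, 3⟩] [⟨1, 0, 2, 1⟩, ⟨1, 0, 4, 1⟩, ⟨15, 26, 4, 7⟩, ⟨1, 1, 7, 12⟩] :=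
  Holds2.of_run2 c5

theorem g9 : Holds2 (esA Q34) (esB8 Q34) 19 [⟨1, 0, 1, 1⟩, ⟨1, 0, 1, 1⟩, ⟨1, 0, 1, 3⟩] [⟨1, 0, 2, 1⟩, ⟨1, 0, 4, 1⟩, ⟨7, 12, 4, 7⟩, ⟨1, 1, 7, 12⟩] :=
  Holds2.split 2 15 26 g7 g8

theorem g10 : Holds2 (esA Q34) (esB8 Q34) 19 [⟨1, 0, 1, 1⟩, ⟨1, 0, 1, 1⟩, ⟨1, 0, 1, 3⟩] [⟨1, 0, 2, 1⟩, ⟨1, 0, 4, 1⟩, ⟨4, 7, 9, 16⟩, ⟨1, 1, 7, 12⟩] :=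
  Holds2.of_run2 c6

theorem g11 : Holds2 (esA Q34) (esB8 Q34) 19 [⟨1, 0, 1, 1⟩, ⟨1, 0, 1, 1⟩, ⟨1, 0, 1, 3⟩] [⟨1, 0, 2, 1⟩, ⟨1, 0, 4, 1⟩, ⟨7, 12, 9, 16⟩, ⟨1, 1, 7, 12⟩] :=
  Holds2.split 2 4 7 g9 g10

theorem g12 : Holds2 (esA Q34) (esB8 Q34) 19 [⟨1, 0, 1, 1⟩, ⟨1, 0, 1, 1⟩, ⟨1, 0, 1, 3⟩] [⟨1, 0, 2, 1⟩, ⟨1, 0, 4, 1⟩, ⟨9, 16, 6, 11⟩, ⟨1, 1, 7, 12⟩] :=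
  Holds2.of_run2 c7

theorem g13 : Holds2 (esA Q34) (esB8 Q34) 19 [⟨1, 0, 1, 1⟩, ⟨1, 0, 1, 1⟩, ⟨1, 0, 1, 3⟩] [⟨1, 0, 2, 1⟩, ⟨1, 0, 4, 1⟩, ⟨7, 12, 6, 11⟩, ⟨1, 1, 7, 12⟩] :=
  Holds2.split 2 9 16 g11 g12

theorem g14 : Holds2 (esA Q34) (esB8 Q34) 19 [⟨1, 0, 1, 1⟩, ⟨1, 0, 1, 1⟩, ⟨1, 0, 1, 3⟩] [⟨1, 0, 2, 1⟩, ⟨4, 1, 2, 1⟩, ⟨7, 12, 6, 11⟩, ⟨1, 1, 7, 12⟩] :=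
  Holds2.of_run2 c8

theorem g15 : Holds2 (esA Q34) (esB8 Q34) 19 [⟨1, 0, 1, 1⟩, ⟨1, 0, 1, 1⟩, ⟨1, 0, 1, 3⟩] [⟨1, 0, 2, 1⟩, ⟨1, 0, 2, 1⟩, ⟨7, 12, 6, 11⟩, ⟨1, 1, 7, 12⟩] :=
  Holds2.split 1 4 1 g13 g14

theorem g16 : Holds2 (esA Q34) (esB8 Q34) 19 [⟨1, 0, 1, 1⟩, ⟨1, 0, 1, 1⟩, ⟨1, 0, 1, 3⟩] [⟨1, 0, 2, 1⟩, ⟨1, 0, 2, 1⟩, ⟨7, 12, 6, 11⟩, ⟨1, 0, 7, 12⟩] :=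
  Holds2.split 3 1 1 g0 g15

theorem g17 : Holds2 (esA Q34) (esB8 Q34) 19 [⟨1, 0, 1, 1⟩, ⟨1, 0, 1, 1⟩, ⟨1, 0, 1, 3⟩] [⟨1, 0, 2, 1⟩, ⟨1, 0, 2, 1⟩, ⟨6, 11, 1, 2⟩, ⟨1, 0, 1, 1⟩] :=
  Holds2.of_run2 c9

theorem g18 : Holds2 (esA Q34) (esB8 Q34) 19 [⟨1, 0, 1, 1⟩, ⟨1, 0, 1, 1⟩, ⟨1, 0, 1, 3⟩] [⟨1, 0, 4, 1⟩, ⟨1, 0, 2, 1⟩, ⟨6, 11, 1, 2⟩, ⟨1, 1, 7, 12⟩] :=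
  Holds2.of_run2 c10

theorem g19 : Holds2 (esA Q34) (esB8 Q34) 19 [⟨1, 0, 1, 1⟩, ⟨1, 0, 1, 1⟩, ⟨1, 0, 1, 3⟩] [⟨4, 1, 2, 1⟩, ⟨1, 0, 2, 1⟩, ⟨6, 11, 1, 2⟩, ⟨1, 1, 7, 12⟩] :=
  Holds2.of_run2 c11

theorem g20 : Holds2 (esA Q34) (esB8 Q34) 19 [⟨1, 0, 1, 1⟩, ⟨1, 0, 1, 1⟩, ⟨1, 0, 1, 3⟩] [⟨1, 0, 2, 1⟩, ⟨1, 0, 2, 1⟩, ⟨6, 11, 1, 2⟩, ⟨1, 1, 7, 12⟩] :=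
  Holds2.split 0 4 1 g18 g19

theorem g21 : Holds2 (esA Q34) (esB8 Q34) 19 [⟨1, 0, 1, 1⟩, ⟨1, 0, 1, 1⟩, ⟨1, 0, 1, 3⟩] [⟨1, 0, 2, 1⟩, ⟨1, 0, 2, 1⟩, ⟨6, 11, 1, 2⟩, ⟨1, 0, 7, 12⟩] :=
  Holds2.split 3 1 1 g17 g20

theorem g22 : Holds2 (esA Q34) (esB8 Q34) 19 [⟨1, 0, 1, 1⟩, ⟨1, 0, 1, 1⟩, ⟨1, 0, 1, 3⟩] [⟨1, 0, 2, 1⟩, ⟨1, 0, 2, 1⟩, ⟨7, 12, 1, 2⟩, ⟨1, 0, 7, 12⟩] :=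
  Holds2.split 2 6 11 g16 g21

theorem g23 : Holds2 (esA Q34) (esB8 Q34) 19 [⟨1, 0, 1, 1⟩, ⟨1, 0, 1, 1⟩, ⟨1, 0, 1, 3⟩] [⟨1, 0, 2, 1⟩, ⟨2, 1, 1, 1⟩, ⟨7, 12, 1, 2⟩, ⟨1, 0, 7, 12⟩] :=
  Holds2.of_run2 c12

theorem g24 : Holds2 (esA Q34) (esB8 Q34) 19 [⟨1, 0, 1, 1⟩, ⟨1, 0, 1, 1⟩, ⟨1, 0, 1, 3⟩] [⟨1, 0, 2, 1⟩, ⟨1, 0, 1, 1⟩, ⟨7, 12, 1, 2⟩, ⟨1, 0, 7, 12⟩] :=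
  Holds2.split 1 2 1 g22 g23

theorem g25 : Holds2 (esA Q34) (esB8 Q34) 19 [⟨1, 0, 1, 1⟩, ⟨1, 0, 1, 1⟩, ⟨1, 0, 1, 3⟩] [⟨2, 1, 1, 1⟩, ⟨1, 0, 2, 1⟩, ⟨7, 12, 1, 2⟩, ⟨1, 0, 7, 12⟩] :=
  Holds2.of_run2 c13

theorem g26 : Holds2 (esA Q34) (esB8 Q34) 19 [⟨1, 0, 1, 1⟩, ⟨1, 0, 1, 1⟩, ⟨1, 0, 1, 3⟩] [⟨2, 1, 1, 1⟩, ⟨2, 1, 1, 1⟩, ⟨7, 12, 6, 11⟩, ⟨1, 0, 7, 12⟩] :=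
  Holds2.of_run2 c14

theorem g27 : Holds2 (esA Q34) (esB8 Q34) 19 [⟨1, 0, 1, 1⟩, ⟨1, 0, 1, 1⟩, ⟨1, 0, 1, 3⟩] [⟨2, 1, 1, 1⟩, ⟨2, 1, 1, 1⟩, ⟨6, 11, 1, 2⟩, ⟨1, 0, 7, 12⟩] :=
  Holds2.of_run2 c15

theorem g28 : Holds2 (esA Q34) (esB8 Q34) 19 [⟨1, 0, 1, 1⟩, ⟨1, 0, 1, 1⟩, ⟨1, 0, 1, 3⟩] [⟨2, 1, 1, 1⟩, ⟨2, 1, 1, 1⟩, ⟨7, 12, 1, 2⟩, ⟨1, 0, 7, 12⟩] :=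
  Holds2.split 2 6 11 g26 g27

theorem g29 : Holds2 (esA Q34) (esB8 Q34) 19 [⟨1, 0, 1, 1⟩, ⟨1, 0, 1, 1⟩, ⟨1, 0, 1, 3⟩] [⟨2, 1, 1, 1⟩, ⟨1, 0, 1, 1⟩, ⟨7, 12, 1, 2⟩, ⟨1, 0, 7, 12⟩] :=
  Holds2.split 1 2 1 g25 g28

theorem g30 : Holds2 (esA Q34) (esB8 Q34) 19 [⟨1, 0, 1, 1⟩, ⟨1, 0, 1, 1⟩, ⟨1, 0, 1, 3⟩] [⟨1, 0, 1, 1⟩, ⟨1, 0, 1, 1⟩, ⟨7, 12, 1, 2⟩, ⟨1, 0, 7, 12⟩] :=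
  Holds2.split 0 2 1 g24 g29

end Crest.Agent.R310.Cert.Q34Cert

theorem Crest.Agent.R310.Cert.holdsQ34 : Holds2 (esA Q34) (esB8 Q34) 19 [⟨1, 0, 1, 1⟩, ⟨1, 0, 1, 1⟩, ⟨1, 0, 1, 3⟩] [⟨1, 0, 1, 1⟩, ⟨1, 0, 1, 1⟩, ⟨7, 12, 1, 2⟩, ⟨1, 0, 7, 12⟩] :=
  Crest.Agent.R310.Cert.Q34Cert.g30
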