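import Crest.Agent.Lib.PolyBB.Basic
import Crest.Agent.R310.N.Q44C0

set_option autoImplicit false
set_option maxRecDepth 100000
set_option Elab.async false

open Crest.Agent.Lib.PolyBB

namespace Crest.Agent.R310.Cert.Q44Cert

theorem g0 : Holds2 (esA Q44) (esB8 Q44) 19 [⟨1, 0, 1, 1⟩, ⟨1, 0, 1, 1⟩, ⟨1, 0, 1, 3⟩] [⟨1, 0, 1, 1⟩, ⟨1, 0, 1, 1⟩, ⟨1, 0, 7, 12⟩, ⟨1, 0, 1, 1⟩] :=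
  Holds2.of_run2 c0

end Crest.Agent.R310.Cert.Q44Cert

theorem Crest.Agent.R310.Cert.holdsQ44 : Holds2 (esA Q44) (esB8 Q44) 19 [⟨1, 0, 1, 1⟩, ⟨1, 0, 1, 1⟩, ⟨1, 0, 1, 3⟩] [⟨1, 0, 1, 1⟩, ⟨1, 0, 1, 1⟩, ⟨1, 0, 7, 12⟩, ⟨1, 0, 1, 1⟩] :=
  Crest.Agent.R310.Cert.Q44Cert.g0
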